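import Crest.Agent.R54.Crit

set_option autoImplicit false

namespace Crest.Agent.R54

open Finset

variable {V : Type} [DecidableEq V] {G : SimpleGraph V} {c : ℕ} {F : Finset V}

namespace AB

open Function

theorem ext_of_period {u w : ℤ → Bool} {m : ℕ} (hm : 0 < m) (hu : Periodic u (m : ℤ))
    (hw : Periodic w (m : ℤ)) (a : ℤ) (h : ∀ t, a ≤ t → t < a + m → u t = w t) (t : ℤ) :
    u t = w t := by
  have hm' : (0 : ℤ) < m := by exact_mod_cast hm
  have e : t = (a + (t - a) % m) + ((t - a) / m : ℤ) * m := by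
    have := Int.emod_add_ediv_mul (t - a) m
    linarith
  have h0 := Int.emod_nonneg (t - a) hm'.ne'
  have h1 := Int.emod_lt_of_pos (t - a) hm'
  have hu' := hu.int_mul ((t - a) / m) (a + (t - a) % m)
  have hw' := hw.int_mul ((t - a) / m) (a + (t - a) % m)
  rw [Int.cast_id, ← e] at hu' hw'
  rw [hu', hw']
  exact h _ (by omega) (by omega)

/-- A cycle of length `n` in `F`, parametrised by the integers. -/
structure Cyc (G : SimpleGraph V) (F : Finset V) (n : ℕ) (z : ℤ → V) : Prop where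
  mem : ∀ t, z t ∈ F
  inj : ∀ s t, z s = z t ↔ (n : ℤ) ∣ s - t
  adj : ∀ t, G.Adj (z t) (z (t + 1))

variable {n l : ℕ} {z : ℤ → V} {χ : V → Bool}

omit [DecidableEq V] in
theorem cyc_of_PF {f : ℕ → V} (hn : 0 < n) (h : PF G F n f) (hl : G.Adj (f (n - 1)) (f 0)) :
    Cyc G F n fun t => f (t % n).toNat := by
  have hn' : (0 : ℤ) < n := by exact_mod_cast hn
  have h0 := fun t : ℤ => Int.emod_nonneg t hn'.ne'
  have h1 := fun t : ℤ => Int.emod_lt_of_pos t hn'
  have h2 : ∀ t : ℤ, (t % n).toNat < n := fun t => by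
    have := h0 t
    have := h1 t
    omega
  refine ⟨fun t => h.1 _ (h2 t), fun s t => ⟨fun e => ?_, fun e => ?_⟩, fun t => ?_⟩
  · have e' := h.2.1 _ _ (h2 s) (h2 t) e
    have := h0 s
    have := h0 t
    exact Int.dvd_of_emod_eq_zero (Int.emod_eq_emod_iff_emod_sub_eq_zero.1 (by omega))
  · rw [Int.emod_eq_emod_iff_emod_sub_eq_zero.2 (Int.emod_eq_zero_of_dvd e)]
  · have := h0 t
    have := h1 t
    have e : (t + 1) % n = (t % n + 1) % n := (Int.emod_add_emod t n 1).symm
    by_cases ht : t % n + 1 < n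
    · rw [e, Int.emod_eq_of_lt (a := t % n + 1) (by omega) ht,
        show (t % n + 1).toNat = (t % n).toNat + 1 by omega]
      exact h.2.2 _ (by omega)
    · rw [e, show t % n + 1 = n by omega, Int.emod_self, show (t % n).toNat = n - 1 by omega]
      exact hl

omit [DecidableEq V] in
theorem Cyc.shift (hz : Cyc G F n z) (a : ℤ) : Cyc G F n fun t => z (a + t) :=
  ⟨fun t => hz.mem _, fun s t => by rw [hz.inj, add_sub_add_left_eq_sub],
    fun t => by rw [← add_assoc]; exact hz.adj _⟩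

omit [DecidableEq V] in
theorem Cyc.pf (hz : Cyc G F n z) (p : ℕ → ℤ) (N : ℕ)
    (h1 : ∀ i j, i < N → j < N → p i - p j < n ∧ (p i = p j → i = j))
    (h2 : ∀ i, i + 1 < N → G.Adj (z (p i)) (z (p (i + 1)))) : PF G F N fun i => z (p i) := by
  refine ⟨fun i _ => hz.mem _, fun i j hi hj e => (h1 i j hi hj).2 ?_, h2⟩
  have a1 := (h1 i j hi hj).1
  have a2 := (h1 j i hj hi).1
  have := Int.eq_zero_of_abs_lt_dvd ((hz.inj _ _).1 e) (abs_lt.2 ⟨by omega, a1⟩)
  omega

omit [DecidableEq V] in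
theorem Cyc.pf_arc (hz : Cyc G F n z) (t : ℤ) {N : ℕ} (hN : N ≤ n) :
    PF G F N fun i => z (t + i) :=
  hz.pf (fun i => t + i) N (fun i j hi hj => by omega) fun i _ => by
    rw [Nat.cast_succ, ← add_assoc]; exact hz.adj _

/-- All paths with `l` edges have ends of the same colour. -/
def Mono (G : SimpleGraph V) (F : Finset V) (χ : V → Bool) (l : ℕ) : Prop :=
  ∀ f, PF G F (l + 1) f → χ (f 0) = χ (f l)

omit [DecidableEq V] in
theorem Cyc.per_n (hz : Cyc G F n z) : Periodic (fun t => χ (z t)) (n : ℤ) := fun t => by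
  simp only
  rw [(hz.inj (t + n) t).2 (by simp)]

omit [DecidableEq V] in
theorem Cyc.per_l (hz : Cyc G F n z) (H : Mono G F χ l) (hl : l < n) :
    Periodic (fun t => χ (z t)) (l : ℤ) := fun t => by
  simpa using (H _ (hz.pf_arc t hl)).symm

omit [DecidableEq V] in
/-- Paths through a chord. -/
theorem Cyc.chord (hz : Cyc G F n z) (H : Mono G F χ l) {r : ℤ} (hr : G.Adj (z 0) (z r))
    (s t : ℕ) (hl : s + 1 + t = l) {α β : ℤ}
    (h : (α = 1 ∧ β = 1 ∧ s < r ∧ r + t < n) ∨ (α = -1 ∧ β = -1 ∧ s + r < n ∧ t < r) ∨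
      (α = 1 ∧ β = -1 ∧ s + t < r ∧ r < n) ∨ (α = -1 ∧ β = 1 ∧ 0 < r ∧ r + t + s < n)) :
    χ (z (α * s)) = χ (z (r + β * t)) := by
  have hα : α = 1 ∨ α = -1 := by omega
  have hβ : β = 1 ∨ β = -1 := by omega
  have key := H _ (hz.pf (fun i => if i ≤ s then α * (s - i) else r + β * (i - s - 1)) (l + 1)
    (fun i j hi hj => ?_) fun i hi => ?_)
  · simp only [Nat.zero_le, if_true, Nat.cast_zero, sub_zero, show ¬ l ≤ s by omega,
      if_false] at key
    rw [key, show (l : ℤ) - s - 1 = t by omega]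
  · rcases h with ⟨rfl, rfl, h⟩ | ⟨rfl, rfl, h⟩ | ⟨rfl, rfl, h⟩ | ⟨rfl, rfl, h⟩ <;>
      split_ifs <;> omega
  · rcases lt_trichotomy i s with h' | rfl | h'
    · rw [if_pos h'.le, if_pos (by omega)]
      rcases hα with rfl | rfl
      · rw [show 1 * ((s : ℤ) - i) = 1 * (s - (i + 1 : ℕ)) + 1 by omega]
        exact (hz.adj _).symm
      · rw [show -1 * ((s : ℤ) - (i + 1 : ℕ)) = -1 * (s - i) + 1 by omega]
        exact hz.adj _
    · rw [if_pos le_rfl, if_neg (by omega)]
      simpa using hr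
    · rw [if_neg (by omega), if_neg (by omega)]
      rcases hβ with rfl | rfl
      · rw [show r + 1 * (((i + 1 : ℕ) : ℤ) - s - 1) = r + 1 * (i - s - 1) + 1 by omega]
        exact hz.adj _
      · rw [show r + -1 * ((i : ℤ) - s - 1) = r + -1 * (((i + 1 : ℕ) : ℤ) - s - 1) + 1 by omega]
        exact (hz.adj _).symm

omit [DecidableEq V] in
theorem Cyc.type1 (hz : Cyc G F n z) (H : Mono G F χ l) (hl : l < n) {r : ℤ}
    (hr : G.Adj (z 0) (z r)) {s : ℤ} (h0 : 0 ≤ s) (h1 : s < l) (h2 : s < r) (h3 : l + r ≤ s + n) :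
    χ (z s) = χ (z (r - 1 - s)) := by
  lift s to ℕ using h0
  have := hz.chord H hr s (l - 1 - s) (by omega) (α := 1) (β := 1) (by omega)
  rw [one_mul, show r + 1 * ((l - 1 - s : ℕ) : ℤ) = r - 1 - s + l by omega] at this
  exact this.trans (hz.per_l H hl _)

omit [DecidableEq V] in
theorem Cyc.type2 (hz : Cyc G F n z) (H : Mono G F χ l) (hl : l < n) {r : ℤ}
    (hr : G.Adj (z 0) (z r)) {s : ℤ} (h0 : 0 ≤ s) (h1 : s < l) (h2 : s + r < n) (h3 : l ≤ s + r) :
    χ (z (-s)) = χ (z (r + 1 + s)) := by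
  lift s to ℕ using h0
  have := hz.chord H hr s (l - 1 - s) (by omega) (α := -1) (β := -1) (by omega)
  rw [neg_one_mul, show r + -1 * ((l - 1 - s : ℕ) : ℤ) = r + 1 + s - l by omega] at this
  exact this.trans ((hz.per_l H hl).sub_eq _)

omit [DecidableEq V] in
theorem Cyc.type4 (hz : Cyc G F n z) (H : Mono G F χ l) (hl : l < n) {r : ℤ}
    (hr : G.Adj (z 0) (z r)) {s : ℤ} (h0 : 0 ≤ s) (h1 : s < l) (h2 : l ≤ r) (h3 : r < n) :
    χ (z s) = χ (z (s + (r + 1))) := by
  lift s to ℕ using h0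
  have := hz.chord H hr s (l - 1 - s) (by omega) (α := 1) (β := -1) (by omega)
  rw [one_mul, show r + -1 * ((l - 1 - s : ℕ) : ℤ) = s + (r + 1) - l by omega] at this
  exact this.trans ((hz.per_l H hl).sub_eq _)

omit [DecidableEq V] in
theorem Cyc.type5 (hz : Cyc G F n z) (H : Mono G F χ l) (hl : l < n) {r : ℤ}
    (hr : G.Adj (z 0) (z r)) {s : ℤ} (h0 : s ≤ 0) (h1 : -s < l) (h2 : 0 < r) (h3 : l + r ≤ n) :
    χ (z s) = χ (z (s + (r - 1))) := by
  obtain ⟨s, rfl⟩ : ∃ s' : ℕ, s = -s' := ⟨(-s).toNat, by omega⟩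
  have := hz.chord H hr s (l - 1 - s) (by omega) (α := -1) (β := 1) (by omega)
  rw [neg_one_mul, show r + 1 * ((l - 1 - s : ℕ) : ℤ) = -s + (r - 1) + l by omega] at this
  exact this.trans (hz.per_l H hl _)

omit [DecidableEq V] in
/-- A proper chord forces the period two. -/
theorem Cyc.per_two (hz : Cyc G F n z) (H : Mono G F χ l) (hl0 : 0 < l) (hl : l < n) {r : ℤ}
    (hr : G.Adj (z 0) (z r)) (h2 : 2 ≤ r) (h3 : r + 2 ≤ n) :
    Periodic (fun t => χ (z t)) 2 := by
  classical
  have pl := hz.per_l H hl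
  have pn := hz.per_n (χ := χ)
  have hex : ∃ m : ℕ, 0 < m ∧ Periodic (fun t => χ (z t)) (m : ℤ) := ⟨l, hl0, pl⟩
  obtain ⟨hm0, pm⟩ := Nat.find_spec hex
  have hmin : ∀ d : ℤ, 0 < d → Periodic (fun t => χ (z t)) d → (Nat.find hex : ℤ) ≤ d := by
    intro d hd pd
    lift d to ℕ using hd.le
    exact_mod_cast Nat.find_min' hex ⟨by exact_mod_cast hd, pd⟩
  generalize Nat.find hex = m at hm0 pm hmin
  have m1 := hmin l (by omega) pl
  have m2 := hmin (n - l) (by omega) (pn.sub_period pl)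
  have m3 : (m : ℤ) ≤ r := by
    by_contra hc
    have := hmin (r - 1) (by omega) fun t =>
      (ext_of_period hl0 pl (pl.add_const (r - 1)) (1 - l)
        (fun s a1 a2 => hz.type5 H hl hr (by omega) (by omega) (by omega) (by omega)) t).symm
    omega
  have m4 : (m : ℤ) ≤ n - r := by
    by_contra hc
    have p1 : Periodic (fun t => χ (z t)) (r + 1) := fun t =>
      (ext_of_period hl0 pl (pl.add_const (r + 1)) 0
        (fun s a1 a2 => hz.type4 H hl hr (by omega) (by omega) (by omega) (by omega)) t).symm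
    have := hmin (n - (r + 1)) (by omega) (pn.sub_period p1)
    omega
  have r1 := ext_of_period hm0 pm (pm.const_sub (r - 1)) (max 0 (l + r - n))
    fun s a1 a2 => hz.type1 H hl hr (by omega) (by omega) (by omega) (by omega)
  have r2 := ext_of_period hm0 (w := fun s => χ (z (r + 1 + s))) (u := fun s => χ (z (-s)))
    (by simpa using pm.const_sub 0) (pm.const_add (r + 1)) (max 0 (l - r))
    fun s a1 a2 => hz.type2 H hl hr (by omega) (by omega) (by omega) (by omega)
  intro t
  have e1 := r1 t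
  have e2 := r2 (-(t + 2))
  simp only at e1 e2 ⊢
  rw [neg_neg, show r + 1 + -(t + 2) = r - 1 - t by omega] at e2
  rw [e1, e2]

/-- A path which starts by running once around the cycle; the last vertex is `g N`. -/
def Long (G : SimpleGraph V) (F : Finset V) (n : ℕ) (z : ℤ → V) (N : ℕ) (g : ℕ → V) (t : ℤ) :
    Prop :=
  n ≤ N + 1 ∧ PF G F (N + 1) g ∧ ∀ i, i < n → g i = z (t + i)

variable {N : ℕ} {g : ℕ → V} {t : ℤ}

omit [DecidableEq V] in
theorem Long.col (hz : Cyc G F n z) (H : Mono G F χ l) (hl0 : 0 < l) (hl : l < n)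
    (h : Long G F n z N g t) (i : ℕ) (hi : i ≤ N) : χ (g i) = χ (z (t + i)) := by
  induction i using Nat.strong_induction_on with
  | _ i ih =>
    by_cases hin : i < n
    · rw [h.2.2 i hin]
    · have hp : PF G F (l + 1) fun j => g (i - l + j) :=
        ⟨fun j hj => h.2.1.1 _ (by omega),
          fun j k hj hk e => by have := h.2.1.2.1 _ _ (by omega) (by omega) e; omega,
          fun j hj => h.2.1.2.2 _ (by omega)⟩
      have e := H _ hp
      simp only [add_zero, show i - l + l = i by omega] at e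
      rw [← e, ih (i - l) (by omega) (by omega), show t + ((i - l : ℕ) : ℤ) = t + i - l by omega]
      exact (hz.per_l H hl).sub_eq _

omit [DecidableEq V] in
theorem Long.pre (h : Long G F n z N g t) {M : ℕ} (h1 : n ≤ M + 1) (h2 : M ≤ N) :
    Long G F n z M g t :=
  ⟨h1, ⟨fun i hi => h.2.1.1 i (by omega), fun i j hi hj => h.2.1.2.1 i j (by omega) (by omega),
    fun i hi => h.2.1.2.2 i (by omega)⟩, h.2.2⟩

omit [DecidableEq V] in
theorem Long.ext (h : Long G F n z N g t) {y : V} (hy : y ∈ F) (ha : G.Adj (g N) y)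
    (hn : ∀ i, i ≤ N → g i ≠ y) :
    Long G F n z (N + 1) (fun i => if i = N + 1 then y else g i) t := by
  refine ⟨h.1.trans (Nat.le_succ _), ⟨fun i hi => ?_, fun i j hi hj e => ?_, fun i hi => ?_⟩,
    fun i hi => ?_⟩
  · dsimp only
    split_ifs with h1
    · exact hy
    · exact h.2.1.1 i (by omega)
  · dsimp only at e
    split_ifs at e with h1 h2 h2
    · omega
    · exact absurd e.symm (hn j (by omega))
    · exact absurd e (hn i (by omega))
    · exact h.2.1.2.1 i j (by omega) (by omega) e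
  · dsimp only
    rw [if_neg (by omega)]
    split_ifs with h1
    · rwa [show i = N by omega]
    · exact h.2.1.2.2 i (by omega)
  · have := h.1
    dsimp only
    rw [if_neg (by omega)]
    exact h.2.2 i hi

omit [DecidableEq V] in
theorem Cyc.long (hz : Cyc G F n z) (hn : 0 < n) (a : ℤ) :
    ∃ N g t, Long G F n z N g t ∧ g N = z a ∧ ∀ i, ∃ b, g i = z b :=
  ⟨n - 1, fun i => z (a - (n - 1) + i), a - (n - 1),
    ⟨by omega, hz.pf_arc _ (by omega), fun _ _ => rfl⟩, congrArg z (by omega), fun _ => ⟨_, rfl⟩⟩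

theorem Cyc.exists_long (hz : Cyc G F n z) (hn : 0 < n) (h : Crit G c F) {y : V} (hy : y ∈ F) :
    ∃ N g t, Long G F n z N g t ∧ g N = y := by
  classical
  have key := h.conn (R := F.filter fun y => ∃ N g t, Long G F n z N g t ∧ g N = y)
    (filter_subset _ _) ⟨z 0, mem_filter.2 ⟨hz.mem 0, ?_⟩⟩ ?_
  · rw [← key] at hy
    exact (mem_filter.1 hy).2
  · obtain ⟨N, g, t, h1, h2, -⟩ := hz.long hn 0
    exact ⟨N, g, t, h1, h2⟩
  · intro a ha b hb hab
    obtain ⟨N, g, t, h1, rfl⟩ := (mem_filter.1 ha).2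
    refine mem_filter.2 ⟨hb, ?_⟩
    by_cases hon : ∀ i, i ≤ N → g i ≠ b
    · exact ⟨N + 1, _, t, h1.ext hb hab hon, by simp⟩
    · push Not at hon
      obtain ⟨i, hi, rfl⟩ := hon
      by_cases hin : i < n
      · obtain ⟨N', g', t', h1', h2', -⟩ := hz.long hn (t + i)
        exact ⟨N', g', t', h1', h2'.trans (h1.2.2 i hin).symm⟩
      · exact ⟨i, g, t, h1.pre (by omega) hi, rfl⟩

omit [DecidableEq V] in
theorem Long.edge (hz : Cyc G F n z) (H : Mono G F χ l) (hl0 : 0 < l) (hl : l < n)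
    (halt : ∀ t, χ (z t) ≠ χ (z (t + 1))) (h : Long G F n z N g t) {y : V} (hy : y ∈ F)
    (ha : G.Adj (g N) y) (hn : ∀ i, i ≤ N → g i ≠ y) : χ (g N) ≠ χ y := by
  have e1 := h.col hz H hl0 hl N le_rfl
  have e2 := (h.ext hy ha hn).col hz H hl0 hl (N + 1) le_rfl
  simp only [if_true] at e2
  rw [e1, e2, Nat.cast_succ, ← add_assoc]
  exact halt _

theorem Cyc.edge_off (hz : Cyc G F n z) (H : Mono G F χ l) (hl0 : 0 < l) (hl : l < n)
    (h : Crit G c F) (halt : ∀ t, χ (z t) ≠ χ (z (t + 1))) {y y' : V} (hy : y ∈ F) (hy' : y' ∈ F)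
    (ha : G.Adj y y') (hoff : ∀ b, z b ≠ y') : χ y ≠ χ y' := by
  obtain ⟨N, g, t, h1, rfl⟩ := hz.exists_long (by omega) h hy'
  by_cases hon : ∀ i, i ≤ N → g i ≠ y
  · exact (h1.edge hz H hl0 hl halt hy ha.symm hon).symm
  · push Not at hon
    obtain ⟨i, hi, rfl⟩ := hon
    by_cases hin : i < n
    · obtain ⟨N', g', t', h1', h2', h3'⟩ := hz.long (by omega) (t + i)
      rw [h1.2.2 i hin, ← h2'] at ha ⊢
      refine h1'.edge hz H hl0 hl halt hy' ha fun j _ => ?_
      obtain ⟨b, hb⟩ := h3' j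
      rw [hb]
      exact hoff b
    · refine (h1.pre (by omega) hi).edge hz H hl0 hl halt hy' ha fun j hj e => ?_
      have := h1.2.1.2.1 j N (by omega) (by omega) e
      exact ha.ne (congrArg g (by omega))

omit [DecidableEq V] in
theorem Cyc.edge_on (hz : Cyc G F n z) (H : Mono G F χ l) (hl0 : 0 < l) (hl : l < n)
    (p2 : Periodic (fun t => χ (z t)) 2) (halt : ∀ t, χ (z t) ≠ χ (z (t + 1))) {a b : ℤ}
    (ha : G.Adj (z a) (z b)) : χ (z a) ≠ χ (z b) := by
  have hn' : (0 : ℤ) < n := by omega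
  have h0 := Int.emod_nonneg (b - a) hn'.ne'
  have h1 := Int.emod_lt_of_pos (b - a) hn'
  have e : z b = z (a + (b - a) % n) := (hz.inj _ _).2 ⟨(b - a) / n, by
    have := Int.emod_add_mul_ediv (b - a) n
    linarith⟩
  generalize (b - a) % n = r at h0 h1 e
  rw [e] at ha ⊢
  have hr : r ≠ 0 := fun e' => ha.ne (by rw [e', add_zero])
  have shift : ∀ (k : ℕ) (x y : ℤ), χ (z (x + k)) = χ (z (y + k)) → χ (z x) = χ (z y) := by
    intro k
    induction k with
    | zero => intro x y h; simpa using h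
    | succ k ih =>
      intro x y h
      rw [Nat.cast_succ, ← add_assoc, ← add_assoc] at h
      have a1 := halt (x + k)
      have a2 := halt (y + k)
      refine ih x y ?_
      rw [h] at a1
      revert a1 a2
      cases χ (z (x + k)) <;> cases χ (z (y + k)) <;> cases χ (z (y + k + 1)) <;> simp
  obtain ⟨s, hs⟩ : ∃ s : ℕ, (s : ℤ) = max 0 (l + r - n) := ⟨(max 0 (l + r - n)).toNat, by omega⟩
  have t1 := (hz.shift a).type1 H hl (r := r) (by simpa using ha) (s := s) (by omega) (by omega)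
    (by omega) (by omega)
  have t2 := p2.int_mul s (a + (r - 1 - s))
  simp only [Int.cast_id] at t1 t2
  rw [← t2, show a + (r - 1 - s) + s * 2 = a + r - 1 + s by omega] at t1
  have t3 := halt (a + r - 1)
  rw [sub_add_cancel] at t3
  rw [shift s _ _ t1]
  exact t3

end AB

open AB Function in
/-- Paths of prescribed length between the two colour classes. -/
theorem Crit.ab_path (h : Crit G c F) (hc : 2 ≤ c) (hw : ∀ K, K ⊆ F → Clq G K → K.card ≤ c)
    (χ : V → Bool) {a b : V} (ha : a ∈ F) (hb : b ∈ F) (hab : χ a ≠ χ b) {l : ℕ} (h1 : 1 ≤ l)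
    (h2 : l ≤ 2 * c) (h3 : l ≤ 2 ∨ 3 ≤ c) : ∃ f, PF G F (l + 1) f ∧ χ (f 0) ≠ χ (f l) := by
  by_contra hcon
  have H : Mono G F χ l := fun f hf => by
    by_contra hne
    exact hcon ⟨f, hf, hne⟩
  obtain ⟨n, f, hn, hf, hlast, hnb⟩ := h.long_cycle (by omega) hw
  have hz := cyc_of_PF (by omega) hf hlast
  have hzf : ∀ i : ℕ, i < n → f ((i : ℤ) % n).toNat = f i := fun i hi => by
    rw [Int.emod_eq_of_lt (by omega) (by omega), Int.toNat_natCast]
  generalize hzz : (fun t : ℤ => f (t % n).toNat) = z at hz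
  replace hzf : ∀ i : ℕ, i < n → z i = f i := fun i hi => by rw [← hzz]; exact hzf i hi
  have hl : l < n := by omega
  have pl := hz.per_l H hl
  have p2 : Periodic (fun t => χ (z t)) 2 := by
    rcases h3 with h3 | h3
    · obtain rfl | rfl : l = 1 ∨ l = 2 := by omega
      · simpa using pl.add_period pl
      · simpa using pl
    · have hf0 := hf.1 0 (by omega)
      have hexp := h.exp (I := {f 0}) (singleton_subset_iff.2 hf0)
        (fun a ha b hb => by
          rw [mem_singleton.1 ha, mem_singleton.1 hb]; exact G.irrefl) (singleton_nonempty _)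
      rw [card_singleton] at hexp
      obtain ⟨y, hy, hy'⟩ := exists_mem_notMem_of_card_lt_card
        (s := ({f 0, f 1, f (n - 1)} : Finset V)) (t := cnb G F {f 0})
        (lt_of_le_of_lt card_le_three (by omega))
      simp only [mem_insert, mem_singleton, not_or] at hy'
      rw [mem_cnb] at hy
      simp only [mem_singleton, exists_eq_left] at hy
      have hadj : G.Adj (f 0) y := hy.2.resolve_left hy'.1
      obtain ⟨r, hr, rfl⟩ := hnb y hy.1 hadj
      have r0 : r ≠ 0 := fun e => hy'.1 (by rw [e])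
      have r1 : r ≠ 1 := fun e => hy'.2.1 (by rw [e])
      have r2 : r ≠ n - 1 := fun e => hy'.2.2 (by rw [e])
      refine hz.per_two H h1 hl (r := r) ?_ (by omega) (by omega)
      rw [hzf r hr, ← Nat.cast_zero, hzf 0 (by omega)]
      exact hadj
  by_cases h01 : χ (z 0) = χ (z 1)
  · have hconst : ∀ t, χ (z t) = χ (z 0) :=
      ext_of_period (m := 2) (by omega) p2 (fun _ => rfl) 0 fun t a1 a2 => by
        obtain rfl | rfl : t = 0 ∨ t = 1 := by omega
        · rfl
        · exact h01.symm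
    have hall : ∀ y ∈ F, χ y = χ (z 0) := fun y hy => by
      obtain ⟨N, g, t, hg, rfl⟩ := hz.exists_long (by omega) h hy
      rw [hg.col hz H h1 hl N le_rfl, hconst]
    exact hab ((hall a ha).trans (hall b hb).symm)
  · have halt : ∀ t, χ (z t) ≠ χ (z (t + 1)) := fun t => by
      have := ext_of_period (m := 2) (u := fun t => χ (z t)) (w := fun t => !χ (z (t + 1)))
        (by omega) p2 (fun t => congrArg (! ·) (p2.add_const 1 t)) 0 (fun t a1 a2 => by
          obtain rfl | rfl : t = 0 ∨ t = 1 := by omega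
          · exact Bool.eq_not_iff.2 h01
          · have := p2 0
            simp only [zero_add] at this
            rw [show (1 : ℤ) + 1 = 2 by rfl, this]
            exact Bool.eq_not_iff.2 (Ne.symm h01)) t
      exact Bool.eq_not_iff.1 this
    have hedge : ∀ y ∈ F, ∀ y' ∈ F, G.Adj y y' → χ y ≠ χ y' := by
      intro y hy y' hy' hadj
      by_cases o1 : ∀ b, z b ≠ y'
      · exact hz.edge_off H h1 hl h halt hy hy' hadj o1
      by_cases o2 : ∀ b, z b ≠ y
      · exact (hz.edge_off H h1 hl h halt hy' hy hadj.symm o2).symm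
      push Not at o1 o2
      obtain ⟨b', rfl⟩ := o1
      obtain ⟨b, rfl⟩ := o2
      exact hz.edge_on H h1 hl p2 halt hadj
    refine h.not_bip hc (A := F.filter fun y => χ y = true) (B := F.filter fun y => χ y = false)
      (fun y hy y' hy' hadj => ?_) (fun y hy y' hy' hadj => ?_) fun v hv => ?_
    · rw [mem_filter] at hy hy'
      exact hedge y hy.1 y' hy'.1 hadj (hy.2.trans hy'.2.symm)
    · rw [mem_filter] at hy hy'
      exact hedge y hy.1 y' hy'.1 hadj (hy.2.trans hy'.2.symm)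
    · simp only [mem_filter, hv, true_and]
      cases χ v <;> simp

end Crest.Agent.R54
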