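import Crest.Agent.R54.Defs

set_option autoImplicit false

namespace Crest.Agent.R54

open Finset

variable {V : Type} [DecidableEq V] {G : SimpleGraph V} {K : Finset V} {k : ℕ}

/-- Independent sets that are pairwise far apart. -/
theorem tower {ι : Type} (ha : ∀ I, Ind G I → I.card ≤ k) (S : Finset ι) (J : ι → Finset V)
    (h1 : ∀ p ∈ S, Ind G (J p))
    (h2 : ∀ p ∈ S, ∀ p' ∈ S, p ≠ p' → ∀ b ∈ J p, ∀ b' ∈ J p', b ≠ b' ∧ ¬ G.Adj b b') :
    ∑ p ∈ S, (J p).card ≤ k := by
  classical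
  rw [← card_biUnion]
  · refine ha _ fun a ha b hb => ?_
    obtain ⟨p, hp, ha⟩ := mem_biUnion.1 ha
    obtain ⟨p', hp', hb⟩ := mem_biUnion.1 hb
    by_cases e : p = p'
    · subst e
      exact h1 p hp a ha b hb
    · exact (h2 p hp p' hp' e a ha b hb).2
  · intro p hp p' hp' e
    exact disjoint_left.2 fun b hb hb' => (h2 p hp p' hp' e b hb b hb').1 rfl

/-- A large set of neighbours contains two non-adjacent vertices. -/
theorem exists_pair (hmax : ∀ K', Clq G K' → K'.card ≤ K.card) {z : V} {D : Finset V}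
    (hD : ∀ b ∈ D, G.Adj z b) (hc : K.card ≤ D.card) : ∃ J, J ⊆ D ∧ Ind G J ∧ J.card = 2 := by
  by_contra hn
  have hz : z ∉ D := fun h => (hD z h).ne rfl
  have hcl : ∀ a ∈ D, ∀ b ∈ D, a ≠ b → G.Adj a b := by
    intro a ha b hb hab
    by_contra hadj
    refine hn ⟨{a, b}, ?_, ?_, card_pair hab⟩
    · exact insert_subset ha (singleton_subset_iff.2 hb)
    · intro u hu v hv
      simp only [mem_insert, mem_singleton] at hu hv
      rcases hu with rfl | rfl <;> rcases hv with rfl | rfl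
      · exact G.irrefl
      · exact hadj
      · exact fun h => hadj h.symm
      · exact G.irrefl
  have := hmax (insert z D) (by
    intro a ha b hb hab
    rcases mem_insert.1 ha with e | ha' <;> rcases mem_insert.1 hb with e' | hb'
    · exact absurd (e.trans e'.symm) hab
    · exact e ▸ hD b hb'
    · exact e' ▸ (hD a ha').symm
    · exact hcl a ha' b hb' hab)
  rw [card_insert_of_notMem hz] at this
  omega

omit [DecidableEq V] in
/-- Balls of radius two are far apart. -/
theorem NoQ.far {X : List V} {p p' z z' b b' : V} (h : NoQ G X p p') (hz : z ∉ X) (hz' : z' ∉ X)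
    (hb : b ∉ X) (hb' : b' ∉ X) (h1 : G.Adj p z) (h1' : G.Adj p' z') (h2 : b = z ∨ G.Adj z b)
    (h2' : b' = z' ∨ G.Adj z' b') : b ≠ b' ∧ ¬ G.Adj b b' := by
  have e1 : z ≠ z' := by
    rintro rfl
    exact h [z] (by simp) (by simp) (by simp) (by simpa using hz) (by simp [h1, h1'.symm])
  have e2 : ¬ G.Adj z z' := fun a =>
    h [z, z'] (by simp) (by simp) (by simp [e1]) (by simp [hz, hz']) (by simp [h1, a, h1'.symm])
  have e3 : ∀ u, u ∉ X → G.Adj z u → G.Adj u z' → False := fun u hu a a' =>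
    h [z, u, z'] (by simp) (by simp) (by simp [e1, a.ne, a'.ne]) (by simp [hz, hz', hu])
      (by simp [h1, a, a', h1'.symm])
  rcases h2 with rfl | h2 <;> rcases h2' with rfl | h2'
  · exact ⟨e1, e2⟩
  · exact ⟨fun e => e2 (e ▸ h2'.symm), fun a => e3 b' hb' a h2'.symm⟩
  · exact ⟨fun e => e2 (e ▸ h2), fun a => e3 b hb h2 a⟩
  · refine ⟨fun e => e3 b hb h2 (e ▸ h2'.symm), fun a => ?_⟩
    have n1 : z ≠ b' := fun e => e2 (e ▸ h2'.symm)
    have n2 : b ≠ z' := fun e => e2 (e ▸ h2)
    exact h [z, b, b', z'] (by simp) (by simp) (by simp [e1, n1, n2, h2.ne, a.ne, h2'.ne'])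
      (by simp [hz, hz', hb, hb']) (by simp [h1, h2, a, h2'.symm, h1'.symm])

end Crest.Agent.R54
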