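import Crest.Agent.R54.LP
import Crest.Agent.R54.Tower

set_option autoImplicit false

namespace Crest.Agent.R54

open Finset

variable {V : Type} [DecidableEq V] [Fintype V] {G : SimpleGraph V} {K : Finset V} {k : ℕ}

namespace StepA

omit [Fintype V] in
theorem noq (hK : Clq G K) {X : List V} (hX : KP G K X)
    (hno : ∀ P, KP G K P → X.length < P.length → P.length ≤ X.length + 4 → False)
    {p p' : V} (hp : p ∈ sset K X) (hp' : p' ∈ sset K X) (hne : p ≠ p') : NoQ G X p p' := by
  intro Q hQ0 hQ4 hQn hQX hch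
  obtain ⟨P', hP', hperm⟩ := hX.1.ext hK ((mem_sset K).1 hp) ((mem_sset K).1 hp') hne hQn hQX hch
  have hlen : P'.length = X.length + Q.length := by rw [hperm.length_eq, List.length_append]
  have hpos : 0 < Q.length := List.length_pos_iff.2 hQ0
  refine hno P' ⟨hP', fun x hx => hperm.mem_iff.2 (List.mem_append_left _ (hX.2 x hx))⟩ ?_ ?_
  · omega
  · omega

omit [Fintype V] in
theorem one_nb (hK : Clq G K) {X : List V} (hX : KP G K X)
    (hno : ∀ P, KP G K P → X.length < P.length → P.length ≤ X.length + 4 → False)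
    {z p p' : V} (hz : z ∉ X) (hp : p ∈ sset K X) (hp' : p' ∈ sset K X) (h1 : G.Adj z p)
    (h2 : G.Adj z p') : p = p' := by
  by_contra hne
  exact noq hK hX hno hp hp' hne [z] (by simp) (by simp) (by simp) (by simpa using hz)
    (by simp [h1.symm, h2])

omit [Fintype V] [DecidableEq V] in
theorem no_consec {X : List V} (hX : KP G K X)
    (hno : ∀ P, KP G K P → X.length < P.length → P.length ≤ X.length + 4 → False)
    {α β : List V} {u u' z : V} (e : X = α ++ u :: u' :: β) (hz : z ∉ X) (h1 : G.Adj z u)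
    (h2 : G.Adj z u') : False := by
  subst e
  have hperm : (α ++ u :: z :: u' :: β).Perm (z :: (α ++ u :: u' :: β)) := by
    have h3 : α ++ u :: z :: u' :: β = (α ++ [u]) ++ z :: (u' :: β) := by simp
    have h4 : α ++ u :: u' :: β = (α ++ [u]) ++ (u' :: β) := by simp
    rw [h3, h4]
    exact List.perm_middle
  refine hno (α ++ u :: z :: u' :: β) ⟨⟨?_, ?_, ?_, ?_⟩, ?_⟩ ?_ ?_
  · exact hperm.nodup_iff.2 (List.nodup_cons.2 ⟨hz, hX.1.nd⟩)
  · have h3 := List.isChain_append_cons_cons.1 hX.1.ch
    exact List.isChain_append_cons_cons.2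
      ⟨h3.1, h1.symm, List.isChain_cons_cons.2 ⟨h2, h3.2.2⟩⟩
  · have h3 := hX.1.hd
    intro x hx
    apply h3 x
    cases α with
    | nil => simpa using hx
    | cons a α => simpa using hx
  · have h3 := hX.1.la
    intro x hx
    apply h3 x
    simpa [List.getLast?_append, List.getLast?_cons_cons] using hx
  · intro x hx
    exact hperm.mem_iff.2 (List.mem_cons_of_mem _ (hX.2 x hx))
  · simp
  · simp only [List.length_append, List.length_cons]
    omega

omit [Fintype V] [DecidableEq V] in
theorem exists_succ {X : List V} (hX : LK K X) {u : V} (hu : u ∈ X) (huK : u ∉ K) :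
    ∃ α u' β, X = α ++ u :: u' :: β := by
  obtain ⟨α, β, rfl⟩ := List.append_of_mem hu
  cases β with
  | nil => exact absurd (hX u (by simp)) huK
  | cons u' β => exact ⟨α, u', β, rfl⟩

omit [Fintype V] [DecidableEq V] in
theorem exists_last {X : List V} (h : ∃ u ∈ X, u ∉ K) :
    ∃ α u β, X = α ++ u :: β ∧ u ∉ K ∧ ∀ v ∈ β, v ∈ K := by
  induction X with
  | nil => simp at h
  | cons a X ih =>
    by_cases h1 : ∃ u ∈ X, u ∉ K
    · obtain ⟨α, u, β, rfl, h2, h3⟩ := ih h1
      exact ⟨a :: α, u, β, rfl, h2, h3⟩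
    · obtain ⟨u, hu, huK⟩ := h
      refine ⟨[], a, X, rfl, ?_, fun v hv => ?_⟩
      · rcases List.mem_cons.1 hu with e | e
        · exact e ▸ huK
        · exact absurd ⟨u, e, huK⟩ h1
      · by_contra hv'
        exact h1 ⟨v, hv, hv'⟩

omit [Fintype V] in
theorem sset_subset (X : List V) : sset K X ⊆ X.toFinset := by
  intro p hp
  obtain ⟨α, β, rfl, -⟩ := (mem_sset K).1 hp
  simp

/-- The structure forced by an exceptional successor. -/
theorem bad (h : Ctx G K k) {X : List V} (hX : KP G K X) (hl : X.length ≤ k)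
    (hno : ∀ P, KP G K P → X.length < P.length → P.length ≤ X.length + 4 → False)
    {p z : V} (hp : p ∈ sset K X) (hz : z ∉ X) (hpz : G.Adj p z)
    (hD : (nb G z \ X.toFinset).card < K.card) :
    X.length = k ∧ (∀ u ∈ X, u ∉ sset K X → G.Adj z u) ∧ (∀ u ∈ X, G.Adj z u → u ∈ K) ∧
      k + 1 ≤ (nb G z ∩ X.toFinset).card + K.card := by
  have hS : (sset K X).card = K.card := by rw [hX.1.card_sset, cK_eq hX.1.nd hX.2]
  have hXc : X.toFinset.card = X.length := List.toFinset_card_of_nodup hX.1.nd
  have h1 := card_sdiff_add_card_inter (nb G z) X.toFinset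
  have h2 := h.hd z
  have h3 : nb G z ∩ X.toFinset ⊆ insert p (X.toFinset \ sset K X) := by
    intro u hu
    rw [mem_inter, mem_nb] at hu
    by_cases hus : u ∈ sset K X
    · rw [one_nb h.hK hX hno hz hus hp hu.1 hpz.symm]
      exact mem_insert_self _ _
    · exact mem_insert_of_mem (mem_sdiff.2 ⟨hu.2, hus⟩)
  have h4 := card_sdiff_add_card_eq_card (sset_subset (K := K) X)
  have h5 := card_insert_le p (X.toFinset \ sset K X)
  have h6 := card_le_card h3
  have h7 : nb G z ∩ X.toFinset = insert p (X.toFinset \ sset K X) :=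
    eq_of_subset_of_card_le h3 (by omega)
  have h8 : ∀ u ∈ X, u ∉ sset K X → G.Adj z u := by
    intro u hu hus
    have h9 : u ∈ nb G z ∩ X.toFinset := by
      rw [h7]
      exact mem_insert_of_mem (mem_sdiff.2 ⟨List.mem_toFinset.2 hu, hus⟩)
    exact (mem_nb G).1 (mem_inter.1 h9).1
  refine ⟨by omega, h8, fun u hu hzu => ?_, by omega⟩
  by_contra huK
  obtain ⟨α, u', β, e⟩ := exists_succ hX.1.la hu huK
  have h9 : u' ∉ sset K X := by
    rw [mem_sset, e]
    exact not_succ (e ▸ hX.1.nd) huK
  exact no_consec hX hno e hz hzu (h8 u' (by rw [e]; simp) h9)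

/-- There is at most one exceptional successor. -/
theorem two_bad (h : Ctx G K k) {X : List V} (hX : KP G K X) (hl : X.length ≤ k)
    (hno : ∀ P, KP G K P → X.length < P.length → P.length ≤ X.length + 4 → False)
    (hw : K.card < k) {p z p' z' : V} (hp : p ∈ sset K X) (hz : z ∉ X) (hpz : G.Adj p z)
    (hD : (nb G z \ X.toFinset).card < K.card) (hp' : p' ∈ sset K X) (hz' : z' ∉ X)
    (hpz' : G.Adj p' z') (hD' : (nb G z' \ X.toFinset).card < K.card) (hne : p ≠ p') : False := by
  obtain ⟨hk, a1, a2, -⟩ := bad h hX hl hno hp hz hpz hD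
  obtain ⟨-, b1, b2, -⟩ := bad h hX hl hno hp' hz' hpz' hD'
  have hS : (sset K X).card = K.card := by rw [hX.1.card_sset, cK_eq hX.1.nd hX.2]
  have hXc : X.toFinset.card = X.length := List.toFinset_card_of_nodup hX.1.nd
  have hXr : KP G K X.reverse := ⟨hX.1.reverse, fun x hx => List.mem_reverse.2 (hX.2 x hx)⟩
  have hnor : ∀ P, KP G K P → X.reverse.length < P.length → P.length ≤ X.reverse.length + 4 →
      False := by
    rw [List.length_reverse]
    exact hno
  have hS' : (sset K X.reverse).card = K.card := by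
    rw [hXr.1.card_sset, cK_eq hXr.1.nd hXr.2]
  have hKX : K ⊆ X.toFinset := fun x hx => List.mem_toFinset.2 (hX.2 x hx)
  have hsuccK : ∀ α u u' β, X = α ++ u :: u' :: β → u ∉ K → u' ∉ sset K X ∧ u' ∈ X ∧ u' ∈ K := by
    intro α u u' β e huK
    have h9 : u' ∉ sset K X := by
      rw [mem_sset, e]
      exact not_succ (e ▸ hX.1.nd) huK
    have h10 : u' ∈ X := by rw [e]; simp
    exact ⟨h9, h10, a2 u' h10 (a1 u' h10 h9)⟩
  have hN : X.toFinset \ K ⊆ sset K X.reverse := by
    intro u hu
    rw [mem_sdiff, List.mem_toFinset] at hu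
    obtain ⟨α, u', β, e⟩ := exists_succ hX.1.la hu.1 hu.2
    have h1 := (hsuccK α u u' β e hu.2).2.2
    refine (mem_sset K).2 ⟨β.reverse ++ [u'], α.reverse, by rw [e]; simp, ?_⟩
    intro x hx
    have h2 : u' = x := by simpa using hx
    exact h2 ▸ h1
  have hNc := card_sdiff_add_card_eq_card hKX
  have hex : ∃ u ∈ X, u ∉ K := by
    have h1 : (X.toFinset \ K).Nonempty := card_pos.1 (by omega)
    obtain ⟨u, hu⟩ := h1
    rw [mem_sdiff, List.mem_toFinset] at hu
    exact ⟨u, hu.1, hu.2⟩
  obtain ⟨α, u, β, e, huK, hβ⟩ := exists_last hex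
  obtain ⟨y, β', rfl⟩ : ∃ y β', β = y :: β' := by
    cases β with
    | nil => exact absurd (hX.1.la u (by rw [e]; simp)) huK
    | cons y β' => exact ⟨y, β', rfl⟩
  obtain ⟨hyS, hyX, -⟩ := hsuccK α u y β' e huK
  have hyS' : y ∈ sset K X.reverse := by
    refine (mem_sset K).2 ⟨β'.reverse, u :: α.reverse, by rw [e]; simp, ?_⟩
    intro x hx
    exact hβ x (List.mem_cons_of_mem _ (List.mem_reverse.1 (List.mem_of_getLast? hx)))
  have hzr : z ∉ X.reverse := fun hh => hz (List.mem_reverse.1 hh)
  have hzr' : z' ∉ X.reverse := fun hh => hz' (List.mem_reverse.1 hh)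
  have hpX : p ∈ X := List.mem_toFinset.1 (sset_subset X hp)
  have hpX' : p' ∈ X := List.mem_toFinset.1 (sset_subset X hp')
  have hsub : insert p (insert p' ((X.toFinset \ sset K X).erase y)) ⊆
      K \ sset K X.reverse := by
    intro v hv
    rw [mem_sdiff]
    rcases mem_insert.1 hv with rfl | hv
    · refine ⟨a2 v hpX hpz.symm, fun hv' => hyS ?_⟩
      rw [one_nb h.hK hXr hnor hzr hyS' hv' (a1 y hyX hyS) hpz.symm]
      exact hp
    rcases mem_insert.1 hv with rfl | hv
    · refine ⟨b2 v hpX' hpz'.symm, fun hv' => hyS ?_⟩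
      rw [one_nb h.hK hXr hnor hzr' hyS' hv' (b1 y hyX hyS) hpz'.symm]
      exact hp'
    · rw [mem_erase, mem_sdiff, List.mem_toFinset] at hv
      have h1 := a1 v hv.2.1 hv.2.2
      exact ⟨a2 v hv.2.1 h1, fun hv' =>
        hv.1 (one_nb h.hK hXr hnor hzr hv' hyS' h1 (a1 y hyX hyS))⟩
  have hc1 : (insert p (insert p' ((X.toFinset \ sset K X).erase y))).card =
      (X.toFinset \ sset K X).card - 1 + 1 + 1 := by
    rw [card_insert_of_notMem, card_insert_of_notMem,
      card_erase_of_mem (mem_sdiff.2 ⟨List.mem_toFinset.2 hyX, hyS⟩)]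
    · intro hh
      exact (mem_sdiff.1 (mem_erase.1 hh).2).2 hp'
    · intro hh
      rcases mem_insert.1 hh with e' | hh
      · exact hne e'
      · exact (mem_sdiff.1 (mem_erase.1 hh).2).2 hp
  have hc2 := card_le_card hsub
  have hc3 := card_sdiff_add_card_eq_card (sset_subset (K := K) X)
  have hc4 := card_sdiff_add_card_inter K (sset K X.reverse)
  have hc5 : (K ∩ sset K X.reverse).card + (X.toFinset \ K).card ≤ (sset K X.reverse).card := by
    rw [← card_union_of_disjoint]
    · exact card_le_card (union_subset inter_subset_right hN)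
    · exact disjoint_left.2 fun v hv hv' => (mem_sdiff.1 hv').2 (mem_inter.1 hv).1
  have hc6 : (sset K X.reverse).card ≤ (K ∩ sset K X.reverse).card + (X.toFinset \ K).card := by
    refine le_trans (card_le_card ?_) (card_union_le _ _)
    intro v hv
    have h1 : v ∈ X.toFinset := by
      have h2 := sset_subset X.reverse hv
      rwa [List.toFinset_reverse] at h2
    by_cases hvK : v ∈ K
    · exact mem_union_left _ (mem_inter.2 ⟨hvK, hv⟩)
    · exact mem_union_right _ (mem_sdiff.2 ⟨h1, hvK⟩)
  omega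

end StepA

open StepA in
/-- A short path through `K` can always be lengthened by at most four vertices. -/
theorem Ctx.stepA (h : Ctx G K k) {X : List V} (hX : KP G K X) (hl : X.length ≤ k)
    (hno : ∀ P, KP G K P → X.length < P.length → P.length ≤ X.length + 4 → False) : False := by
  classical
  have hS : (sset K X).card = K.card := by rw [hX.1.card_sset, cK_eq hX.1.nd hX.2]
  have hXc : X.toFinset.card = X.length := List.toFinset_card_of_nodup hX.1.nd
  have hKX : K ⊆ X.toFinset := fun x hx => List.mem_toFinset.2 (hX.2 x hx)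
  have hwk := h.card_le
  have hw := h.hw
  have hz : ∀ p, ∃ z, p ∈ X → z ∉ X ∧ G.Adj p z := by
    intro p
    by_contra hn
    have h1 : ∀ z, p ∈ X ∧ (G.Adj p z → z ∈ X) := by
      intro z
      by_contra h2
      refine hn ⟨z, fun hp => ?_⟩
      by_contra h3
      refine h2 ⟨hp, fun ha => ?_⟩
      by_contra h4
      exact h3 ⟨h4, ha⟩
    have h2 : nb G p ⊆ X.toFinset.erase p := by
      intro v hv
      rw [mem_nb] at hv
      exact mem_erase.2 ⟨hv.ne', List.mem_toFinset.2 ((h1 v).2 hv)⟩
    have h3 := card_le_card h2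
    rw [card_erase_of_mem (List.mem_toFinset.2 (h1 p).1)] at h3
    have h4 := h.hd p
    have h5 := h.hk
    omega
  choose z hz using hz
  have hzS : ∀ p ∈ sset K X, z p ∉ X ∧ G.Adj p (z p) := fun p hp =>
    hz p (List.mem_toFinset.1 (sset_subset X hp))
  obtain ⟨C, hC⟩ : ∃ C : V → Finset V, ∀ p, C p = insert (z p) (nb G (z p) \ X.toFinset) :=
    ⟨_, fun _ => rfl⟩
  have hCm : ∀ p ∈ sset K X, ∀ b ∈ C p, b ∉ X ∧ (b = z p ∨ G.Adj (z p) b) := by
    intro p hp b hb
    rw [hC] at hb
    rcases mem_insert.1 hb with e | hb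
    · exact ⟨e ▸ (hzS p hp).1, Or.inl e⟩
    · rw [mem_sdiff, mem_nb, List.mem_toFinset] at hb
      exact ⟨hb.2, Or.inr hb.1⟩
  have hfar : ∀ p ∈ sset K X, ∀ p' ∈ sset K X, p ≠ p' → ∀ b ∈ C p, ∀ b' ∈ C p',
      b ≠ b' ∧ ¬ G.Adj b b' := by
    intro p hp p' hp' hne b hb b' hb'
    exact (noq h.hK hX hno hp hp' hne).far (hzS p hp).1 (hzS p' hp').1 (hCm p hp b hb).1
      (hCm p' hp' b' hb').1 (hzS p hp).2 (hzS p' hp').2 (hCm p hp b hb).2 (hCm p' hp' b' hb').2
  have hzC : ∀ p, z p ∈ C p := fun p => by rw [hC]; exact mem_insert_self _ _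
  obtain ⟨gd, hgd⟩ : ∃ gd : V → Prop, ∀ p, gd p ↔ ∃ J, J ⊆ C p ∧ Ind G J ∧ J.card = 2 :=
    ⟨_, fun _ => Iff.rfl⟩
  have hJ : ∀ p, ∃ J, J ⊆ C p ∧ Ind G J ∧ J.card = 1 + if gd p then 1 else 0 := by
    intro p
    by_cases hp : gd p
    · rw [if_pos hp]
      exact (hgd p).1 hp
    · rw [if_neg hp]
      refine ⟨{z p}, singleton_subset_iff.2 (hzC p), ?_, by simp⟩
      intro a ha b hb
      rw [mem_singleton.1 ha, mem_singleton.1 hb]
      exact G.irrefl
  choose J hJ using hJ
  have hsum := tower h.ha (sset K X) J (fun p _ => (hJ p).2.1)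
    (fun p hp p' hp' hne b hb b' hb' => hfar p hp p' hp' hne b ((hJ p).1 hb) b' ((hJ p').1 hb'))
  rw [sum_congr rfl fun p _ => (hJ p).2.2, sum_add_distrib, ← card_filter, sum_const,
    smul_eq_mul, mul_one] at hsum
  have hsplit : ((sset K X).filter fun p => gd p).card +
      ((sset K X).filter fun p => ¬ gd p).card = (sset K X).card :=
    card_filter_add_card_filter_not (s := sset K X) gd
  have hbadD : ∀ p, ¬ gd p → (nb G (z p) \ X.toFinset).card < K.card := by
    intro p hp
    by_contra hn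
    obtain ⟨J', h1, h2, h3⟩ := exists_pair h.hmax (z := z p) (D := nb G (z p) \ X.toFinset)
      (fun b hb => (mem_nb G).1 (mem_sdiff.1 hb).1) (not_lt.1 hn)
    refine hp ((hgd p).2 ⟨J', ?_, h2, h3⟩)
    rw [hC]
    exact h1.trans (subset_insert _ _)
  obtain ⟨p0, hp0⟩ : ((sset K X).filter fun p => ¬ gd p).Nonempty := card_pos.1 (by omega)
  obtain ⟨hp0S, hp0b⟩ := mem_filter.1 hp0
  rcases eq_or_lt_of_le hwk with hwk' | hwk'
  · -- the case `|K| = k`
    have hSX : sset K X = X.toFinset := eq_of_subset_of_card_le (sset_subset X) (by omega)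
    have hcl : ∀ a ∈ C p0, ∀ b ∈ C p0, a ≠ b → G.Adj a b := by
      intro a ha b hb hab
      by_contra hadj
      refine hp0b ((hgd p0).2 ⟨{a, b}, insert_subset ha (singleton_subset_iff.2 hb), ?_,
        card_pair hab⟩)
      intro u hu v hv
      simp only [mem_insert, mem_singleton] at hu hv
      rcases hu with rfl | rfl <;> rcases hv with rfl | rfl
      · exact G.irrefl
      · exact hadj
      · exact fun hh => hadj hh.symm
      · exact G.irrefl
    have hp0X : p0 ∈ X := List.mem_toFinset.1 (sset_subset X hp0S)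
    have hCc : k ≤ (C p0).card := by
      have h1 := card_sdiff_add_card_inter (nb G (z p0)) X.toFinset
      have h2 := h.hd (z p0)
      have h3 : nb G (z p0) ∩ X.toFinset ⊆ {p0} := by
        intro u hu
        rw [mem_inter, mem_nb, ← hSX] at hu
        exact mem_singleton.2
          (one_nb h.hK hX hno (hzS p0 hp0S).1 hu.2 hp0S hu.1 (hzS p0 hp0S).2.symm)
      have h4 := card_le_card h3
      rw [card_singleton] at h4
      rw [hC, card_insert_of_notMem]
      · omega
      · intro hh
        exact G.irrefl ((mem_nb G).1 (mem_sdiff.1 hh).1)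
    have hp0C : p0 ∉ C p0 := fun hh => (hCm p0 hp0S p0 hh).1 hp0X
    obtain ⟨b0, hb0, hb0a⟩ : ∃ b0 ∈ C p0, ¬ G.Adj p0 b0 := by
      by_contra hn
      have h1 : ∀ b ∈ C p0, G.Adj p0 b := by
        intro b hb
        by_contra h2
        exact hn ⟨b, hb, h2⟩
      have h2 := h.hmax (insert p0 (C p0)) (by
        intro a ha b hb hab
        rcases mem_insert.1 ha with e | ha' <;> rcases mem_insert.1 hb with e' | hb'
        · exact absurd (e.trans e'.symm) hab
        · exact e ▸ h1 b hb'
        · exact e' ▸ (h1 a ha').symm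
        · exact hcl a ha' b hb' hab)
      rw [card_insert_of_notMem hp0C] at h2
      omega
    have hne0 : p0 ≠ b0 := fun e => hp0C (e ▸ hb0)
    obtain ⟨J', hJ'⟩ : ∃ J' : V → Finset V, ∀ p, J' p = if p = p0 then {p0, b0} else {z p} :=
      ⟨_, fun _ => rfl⟩
    have hkey : ∀ p ∈ sset K X, p ≠ p0 → ∀ b ∈ J' p0, b ≠ z p ∧ ¬ G.Adj b (z p) := by
      intro p hp hne b hb
      rw [hJ', if_pos rfl, mem_insert, mem_singleton] at hb
      rcases hb with rfl | rfl
      · refine ⟨fun e => (hzS p hp).1 (e ▸ hp0X), fun ha => hne ?_⟩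
        exact one_nb h.hK hX hno (hzS p hp).1 hp hp0S (hzS p hp).2.symm ha.symm
      · exact hfar p0 hp0S p hp hne.symm b hb0 (z p) (hzC p)
    have hsum' := tower h.ha (sset K X) J' (by
      intro p _
      rw [hJ']
      split_ifs
      · intro u hu v hv
        simp only [mem_insert, mem_singleton] at hu hv
        rcases hu with rfl | rfl <;> rcases hv with rfl | rfl
        · exact G.irrefl
        · exact hb0a
        · exact fun hh => hb0a hh.symm
        · exact G.irrefl
      · intro a ha b hb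
        rw [mem_singleton.1 ha, mem_singleton.1 hb]
        exact G.irrefl) (by
      intro p hp p' hp' hne b hb b' hb'
      by_cases e : p = p0
      · have e' : p' ≠ p0 := fun e' => hne (e.trans e'.symm)
        rw [hJ' p', if_neg e', mem_singleton] at hb'
        rw [hb']
        exact hkey p' hp' e' b (e ▸ hb)
      · rw [hJ' p, if_neg e, mem_singleton] at hb
        rw [hb]
        by_cases e' : p' = p0
        · have h1 := hkey p hp e b' (e' ▸ hb')
          exact ⟨h1.1.symm, fun hh => h1.2 hh.symm⟩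
        · rw [hJ' p', if_neg e', mem_singleton] at hb'
          rw [hb']
          exact hfar p hp p' hp' hne _ (hzC p) _ (hzC p'))
    have hcard : ∀ p ∈ sset K X, (J' p).card = 1 + if p = p0 then 1 else 0 := by
      intro p _
      rw [hJ']
      split_ifs
      · rw [card_pair hne0]
      · simp
    rw [sum_congr rfl hcard, sum_add_distrib, sum_ite_eq', if_pos hp0S, sum_const, smul_eq_mul,
      mul_one] at hsum'
    omega
  · by_cases h2w : 2 * K.card = k + 1
    · obtain ⟨-, -, a2, a3⟩ := bad h hX hl hno hp0S (hzS p0 hp0S).1 (hzS p0 hp0S).2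
        (hbadD p0 hp0b)
      have h1 : nb G (z p0) ∩ X.toFinset ⊆ K := by
        intro u hu
        rw [mem_inter, mem_nb, List.mem_toFinset] at hu
        exact a2 u hu.2 hu.1
      have h2 : nb G (z p0) ∩ X.toFinset = K := eq_of_subset_of_card_le h1 (by omega)
      have h3 : ∀ u ∈ K, G.Adj (z p0) u := by
        intro u hu
        rw [← h2] at hu
        exact (mem_nb G).1 (mem_inter.1 hu).1
      have h4 := h.hmax (insert (z p0) K) (by
        intro a ha b hb hab
        rcases mem_insert.1 ha with e | ha' <;> rcases mem_insert.1 hb with e' | hb'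
        · exact absurd (e.trans e'.symm) hab
        · exact e ▸ h3 b hb'
        · exact e' ▸ (h3 a ha').symm
        · exact h.hK a ha' b hb' hab)
      rw [card_insert_of_notMem fun hh => (hzS p0 hp0S).1 (hX.2 _ hh)] at h4
      omega
    · obtain ⟨p, hp, p', hp', hne⟩ :=
        one_lt_card.1 (show 1 < ((sset K X).filter fun p => ¬ gd p).card by omega)
      obtain ⟨hpS, hpb⟩ := mem_filter.1 hp
      obtain ⟨hpS', hpb'⟩ := mem_filter.1 hp'
      exact two_bad h hX hl hno hwk' hpS (hzS p hpS).1 (hzS p hpS).2 (hbadD p hpb) hpS'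
        (hzS p' hpS').1 (hzS p' hpS').2 (hbadD p' hpb') hne

end Crest.Agent.R54
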