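import Crest.Agent.R54.Seg
import Crest.Agent.R54.StepA

set_option autoImplicit false

namespace Crest.Agent.R54

open Finset

variable {V : Type} [DecidableEq V] [Fintype V] {G : SimpleGraph V} {K : Finset V} {k : ℕ}

namespace ACaseAux

omit [Fintype V] in
theorem cN_append (P Q : List V) : cN K (P ++ Q) = cN K P + cN K Q := List.countP_append ..

omit [Fintype V] in
theorem cK_append (P Q : List V) : cK K (P ++ Q) = cK K P + cK K Q := List.countP_append ..

omit [Fintype V] in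
theorem cN_perm {P Q : List V} (h : P.Perm Q) : cN K P = cN K Q := h.countP_eq _

omit [Fintype V] in
theorem cN_of_out {Q : List V} (h : ∀ v ∈ Q, v ∉ K) : cN K Q = Q.length :=
  List.countP_eq_length.2 fun v hv => by simpa using h v hv

theorem no_r (h : Ctx G K k) {P : List V} (hP : LP G K P) (h1 : cN K P + K.card = k + 1) :
    False := by
  have h2 := cK_add_cN K P
  have h3 := cK_le (K := K) hP.nd
  have h4 := h.hk
  exact h.hc (hP.add h.hK (by omega) (by omega) (by omega))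

/-- no short detour between two successors of a path with `cN P + w = k` that misses a vertex
of `K`. -/
theorem noQ_of (h : Ctx G K k) (h8 : 8 ≤ K.card) {X P : List V} (hP : LP G K P)
    (hc : cN K P + K.card = k) (hXK : ∀ u ∈ K, u ∈ X) (hPX : ∀ u ∈ P, u ∈ X) {y : V} (hy : y ∈ K)
    (hyP : y ∉ P) {p p' : V} (hp : Succ K P p) (hp' : Succ K P p') (hne : p ≠ p') :
    NoQ G X p p' := by
  intro Q hQ0 hQ4 hQn hQX hch
  obtain ⟨P', hP', hperm⟩ := hP.ext h.hK hp hp' hne hQn (fun v hv hvP => hQX v hv (hPX v hvP)) hch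
  have e1 : cN K P' = cN K P + Q.length := by
    rw [cN_perm hperm, cN_append, cN_of_out fun v hv hvK => hQX v hv (hXK v hvK)]
  have e2 : 0 < Q.length := List.length_pos_iff.2 hQ0
  refine h.no_miss h8 hP' hy (fun hyP' => ?_) (by omega) (by omega)
  rcases List.mem_append.1 (hperm.mem_iff.1 hyP') with h1 | h1
  · exact hyP h1
  · exact hQX y h1 (hXK y hy)

omit [Fintype V] [DecidableEq V] in
theorem noQ_single {X : List V} {p p' z : V} (h : NoQ G X p p') (hz : z ∉ X) (h1 : G.Adj p z)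
    (h2 : G.Adj z p') : False :=
  h [z] (by simp) (by simp) (by simp) (by simpa using hz) (by simp [h1, h2])

/-- counting the neighbours outside a set. -/
theorem pair_of (h : Ctx G K k) {z : V} {A : Finset V} {X : List V} {E : Finset V}
    (hA : ∀ b, G.Adj z b → b ∈ X → b ∈ A) (hc : A.card + E.card + K.card ≤ k) :
    ∃ J : Finset V, Ind G J ∧ J.card = 2 ∧ ∀ b ∈ J, b ∉ X ∧ G.Adj z b ∧ b ∉ E := by
  have h1 : (nb G z).card ≤ (nb G z \ (A ∪ E)).card + (A ∪ E).card := card_le_card_sdiff_add_card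
  have h2 := card_union_le A E
  have h3 := h.hd z
  obtain ⟨J, hJ, hI, h2⟩ := exists_pair h.hmax (z := z) (D := nb G z \ (A ∪ E))
    (fun b hb => (mem_nb G).1 (mem_sdiff.1 hb).1) (by omega)
  refine ⟨J, hI, h2, fun b hb => ?_⟩
  obtain ⟨a1, a2⟩ := mem_sdiff.1 (hJ hb)
  rw [mem_nb] at a1
  rw [mem_union, not_or] at a2
  exact ⟨fun hX => a2.1 (hA b a1 hX), a1, a2.2⟩

/-- The data of two good segments. -/
structure Dat (G : SimpleGraph V) (K : Finset V) (k : ℕ) (Z : List V) (x' v v' y' x w w' y : V) :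
    Prop where
  hZ : LP G K Z
  nd : [x', v, v', y', x, w, w', y].Nodup
  dj : ∀ u ∈ Z, u ∉ [x', v, v', y', x, w, w', y]
  kx' : x' ∈ K
  ky' : y' ∈ K
  kx : x ∈ K
  ky : y ∈ K
  nv : v ∉ K
  nv' : v' ∉ K
  nw : w ∉ K
  nw' : w' ∉ K
  a1 : G.Adj x' v
  a2 : G.Adj v v'
  a3 : G.Adj v' y'
  b1 : G.Adj x w
  b2 : G.Adj w w'
  b3 : G.Adj w' y
  all : ∀ u ∈ K, u ∈ Z ∨ u = x' ∨ u = y' ∨ u = x ∨ u = y
  cn : cN K Z + K.card + 2 = k
  ck : cK K Z + 4 = K.card

variable {Z : List V} {x' v v' y' x w w' y : V}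

omit [Fintype V] in
theorem Dat.symm (d : Dat G K k Z x' v v' y' x w w' y) : Dat G K k Z x' v v' y' y w' w x where
  hZ := d.hZ
  nd := by
    refine (List.Perm.nodup_iff ?_).1 d.nd
    exact List.Perm.append_left [x', v, v', y'] (List.reverse_perm [y, w', w, x])
  dj := fun u hu h => d.dj u hu (by
    simp only [List.mem_cons, List.not_mem_nil, or_false] at h ⊢
    tauto)
  kx' := d.kx'
  ky' := d.ky'
  kx := d.ky
  ky := d.kx
  nv := d.nv
  nv' := d.nv'
  nw := d.nw'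
  nw' := d.nw
  a1 := d.a1
  a2 := d.a2
  a3 := d.a3
  b1 := d.b3.symm
  b2 := d.b2.symm
  b3 := d.b1.symm
  all := fun u hu => by have := d.all u hu; tauto
  cn := d.cn
  ck := d.ck

omit [Fintype V] in
/-- a path made of `Z` and a segment. -/
theorem Dat.lp (hK : Clq G K) (d : Dat G K k Z x' v v' y' x w w' y) {T : List V} (h1 : T.Nodup)
    (h2 : T.IsChain G.Adj) (h3 : HK K T) (h4 : LK K T)
    (h5 : ∀ u ∈ T, u ∈ [x', v, v', y', x, w, w', y] ∨ u ∉ Z) : LP G K (Z ++ T) :=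
  d.hZ.append hK ⟨h1, h2, h3, h4⟩ fun u hu huT => (h5 u huT).elim (d.dj u hu) fun h => h hu

omit [Fintype V] in
theorem Dat.lpZ (hK : Clq G K) (d : Dat G K k Z x' v v' y' x w w' y) :
    LP G K (Z ++ [x', v, v', y']) := by
  have nd := d.nd
  refine d.lp hK ?_ (by simp [d.a1, d.a2, d.a3]) (by simp [HK, d.kx']) (by simp [LK, d.ky'])
    (by simp)
  exact nd.sublist (List.sublist_append_left [x', v, v', y'] [x, w, w', y])

omit [Fintype V] in
theorem Dat.cnZ (d : Dat G K k Z x' v v' y' x w w' y) :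
    cN K (Z ++ [x', v, v', y']) + K.card = k := by
  have := d.cn
  rw [cN_append]
  have e : cN K [x', v, v', y'] = 2 := by simp [cN, d.kx', d.ky', d.nv, d.nv']
  omega

omit [Fintype V] in
theorem Dat.card_S (hK : Clq G K) (d : Dat G K k Z x' v v' y' x w w' y) :
    (sset K (Z ++ [x', v, v', y'])).card + 2 = K.card := by
  have := d.ck
  rw [(d.lpZ hK).card_sset, cK_append]
  have e : cK K [x', v, v', y'] = 2 := by simp [cK, d.kx', d.ky', d.nv, d.nv']
  omega

omit [Fintype V] in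
theorem Dat.card_rest (hK : Clq G K) (d : Dat G K k Z x' v v' y' x w w' y) :
    ((Z ++ [x', v, v', y']).toFinset \ sset K (Z ++ [x', v, v', y'])).card + K.card = k := by
  have h1 := d.card_S hK
  have h2 := d.cnZ
  have h3 := (d.lpZ hK).card_sset
  have h4 := cK_add_cN K (Z ++ [x', v, v', y'])
  have h5 := List.toFinset_card_of_nodup (d.lpZ hK).nd
  have h6 : sset K (Z ++ [x', v, v', y']) ⊆ (Z ++ [x', v, v', y']).toFinset := by
    classical
    exact filter_subset _ _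
  have h7 := card_sdiff_add_card_eq_card h6
  omega

omit [Fintype V] in
theorem Dat.v'_mem (hK : Clq G K) (d : Dat G K k Z x' v v' y' x w w' y) :
    v' ∈ (Z ++ [x', v, v', y']).toFinset \ sset K (Z ++ [x', v, v', y']) := by
  refine mem_sdiff.2 ⟨by simp, ?_⟩
  rw [mem_sset]
  have e : Z ++ [x', v, v', y'] = (Z ++ [x']) ++ v :: v' :: [y'] := by simp
  have nd := (d.lpZ hK).nd
  rw [e] at nd ⊢
  exact not_succ nd d.nv

omit [Fintype V] in
theorem Dat.y'_mem (hK : Clq G K) (d : Dat G K k Z x' v v' y' x w w' y) :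
    y' ∈ (Z ++ [x', v, v', y']).toFinset \ sset K (Z ++ [x', v, v', y']) := by
  refine mem_sdiff.2 ⟨by simp, ?_⟩
  rw [mem_sset]
  have e : Z ++ [x', v, v', y'] = (Z ++ [x', v]) ++ v' :: y' :: [] := by simp
  have nd := (d.lpZ hK).nd
  rw [e] at nd ⊢
  exact not_succ nd d.nv'

omit [Fintype V] in
theorem Dat.not_mem (d : Dat G K k Z x' v v' y' x w w' y) {u : V} (hu : u ∈ [x, w, w', y]) :
    u ∉ Z ++ [x', v, v', y'] := by
  intro h
  rcases List.mem_append.1 h with h | h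
  · exact d.dj u h (List.mem_append_right [x', v, v', y'] hu)
  · exact (List.nodup_append.1 (show ([x', v, v', y'] ++ [x, w, w', y]).Nodup from d.nd)).2.2
      u h u hu rfl

omit [Fintype V] in
theorem Dat.KX (d : Dat G K k Z x' v v' y' x w w' y) {X : List V}
    (hX : ∀ u, u ∈ X ↔ u ∈ Z ++ [x', v, v', y'] ∨ u = x ∨ u = y) : ∀ u ∈ K, u ∈ X := by
  intro u hu
  have := d.all u hu
  rw [hX]
  simp only [List.mem_append, List.mem_cons, List.not_mem_nil, or_false]
  tauto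

omit [Fintype V] in
theorem Dat.w_not_mem (d : Dat G K k Z x' v v' y' x w w' y) {X : List V}
    (hX : ∀ u, u ∈ X ↔ u ∈ Z ++ [x', v, v', y'] ∨ u = x ∨ u = y) : w ∉ X := by
  rw [hX]
  rintro (h | h | h)
  · exact d.not_mem (by simp) h
  · exact d.nw (h ▸ d.kx)
  · exact d.nw (h ▸ d.ky)

theorem Dat.noQ_S (h : Ctx G K k) (h8 : 8 ≤ K.card) (d : Dat G K k Z x' v v' y' x w w' y)
    {X : List V} (hX : ∀ u, u ∈ X ↔ u ∈ Z ++ [x', v, v', y'] ∨ u = x ∨ u = y) {p p' : V}
    (hp : p ∈ sset K (Z ++ [x', v, v', y'])) (hp' : p' ∈ sset K (Z ++ [x', v, v', y']))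
    (hne : p ≠ p') : NoQ G X p p' :=
  noQ_of h h8 (d.lpZ h.hK) d.cnZ (d.KX hX) (fun u hu => (hX u).2 (Or.inl hu)) d.kx
    (d.not_mem (by simp)) ((mem_sset K).1 hp) ((mem_sset K).1 hp') hne

theorem Dat.noQ_x (h : Ctx G K k) (h8 : 8 ≤ K.card) (d : Dat G K k Z x' v v' y' x w w' y)
    {X : List V} (hX : ∀ u, u ∈ X ↔ u ∈ Z ++ [x', v, v', y'] ∨ u = x ∨ u = y) {p : V}
    (hp : p ∈ sset K (Z ++ [x', v, v', y'])) : NoQ G X p x := by
  have hx : x ∉ Z ++ [x', v, v', y'] := d.not_mem (by simp)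
  have hy : y ∉ Z ++ [x', v, v', y'] := d.not_mem (by simp)
  have hxy : y ≠ x := by
    have := d.nd
    simp only [List.nodup_cons, List.mem_cons, not_or] at this
    tauto
  have hL : LP G K (Z ++ [x', v, v', y'] ++ [x]) :=
    (d.lpZ h.hK).append h.hK ⟨by simp, by simp, by simp [HK, d.kx], by simp [LK, d.kx]⟩
      fun u hu hux => hx (List.mem_singleton.1 hux ▸ hu)
  obtain ⟨α, β, e, hα⟩ := (mem_sset K).1 hp
  refine noQ_of h h8 hL ?_ (d.KX hX) ?_ d.ky ?_ ⟨α, β ++ [x], by rw [e]; simp, hα⟩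
    ⟨_, [], rfl, (d.lpZ h.hK).la⟩ ?_
  · have := d.cnZ
    rw [cN_append]
    have e : cN K [x] = 0 := by simp [cN, d.kx]
    omega
  · intro u hu
    rcases List.mem_append.1 hu with hu | hu
    · exact (hX u).2 (Or.inl hu)
    · exact (hX u).2 (Or.inr (Or.inl (List.mem_singleton.1 hu)))
  · intro hu
    rcases List.mem_append.1 hu with hu | hu
    · exact hy hu
    · exact hxy (List.mem_singleton.1 hu)
  · rintro rfl
    exact hx (by rw [e]; simp)

/-- a segment with three new vertices outside `K` is impossible. -/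
theorem Dat.no3 (h : Ctx G K k) (d : Dat G K k Z x' v v' y' x w w' y) {T : List V} (h1 : T.Nodup)
    (h2 : T.IsChain G.Adj) (h3 : HK K T) (h4 : LK K T)
    (h5 : ∀ u ∈ T, u ∈ [x', v, v', y', x, w, w', y] ∨ u ∉ Z) (h6 : cN K T = 3) : False := by
  refine no_r h (d.lp h.hK h1 h2 h3 h4 h5) ?_
  have := d.cn
  rw [cN_append]
  omega

theorem Dat.pair_S (h : Ctx G K k) (h8 : 8 ≤ K.card) (d : Dat G K k Z x' v v' y' x w w' y)
    {X : List V} (hX : ∀ u, u ∈ X ↔ u ∈ Z ++ [x', v, v', y'] ∨ u = x ∨ u = y) {p : V}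
    (hp : p ∈ sset K (Z ++ [x', v, v', y'])) :
    ∃ (z : V) (J : Finset V), z ∉ X ∧ G.Adj p z ∧ Ind G J ∧ J.card = 2 ∧
      ∀ b ∈ J, b ∉ X ∧ G.Adj z b := by
  have hX' : ∀ u, u ∈ X ↔ u ∈ Z ++ [x', v, v', y'] ∨ u = y ∨ u = x := fun u => by
    rw [hX]; tauto
  have hR := d.card_rest h.hK
  have hS := d.card_S h.hK
  have hpZ : p ∈ (Z ++ [x', v, v', y']).toFinset := by
    classical
    exact filter_subset _ _ hp
  obtain ⟨z, hpz, hz⟩ : ∃ z, G.Adj p z ∧ z ∉ X := by
    by_contra hn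
    push Not at hn
    have h1 : nb G p ⊆ insert x (insert y ((Z ++ [x', v, v', y']).toFinset.erase p)) := by
      intro b hb
      rw [mem_nb] at hb
      rcases (hX b).1 (hn b hb) with h2 | h2 | h2
      · exact mem_insert_of_mem (mem_insert_of_mem
          (mem_erase.2 ⟨hb.ne', List.mem_toFinset.2 h2⟩))
      · exact h2 ▸ mem_insert_self _ _
      · exact mem_insert_of_mem (h2 ▸ mem_insert_self _ _)
    have h2 := card_le_card h1
    have h3 := card_insert_le x (insert y ((Z ++ [x', v, v', y']).toFinset.erase p))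
    have h4 := card_insert_le y ((Z ++ [x', v, v', y']).toFinset.erase p)
    have h5 := card_erase_add_one hpZ
    have h6 : sset K (Z ++ [x', v, v', y']) ⊆ (Z ++ [x', v, v', y']).toFinset := by
      classical
      exact filter_subset _ _
    have h7 := card_sdiff_add_card_eq_card h6
    have h9 := h.hd p
    omega
  have hzK : z ∉ K := fun hz' => hz (d.KX hX z hz')
  have hnb : ∀ b, G.Adj z b → b ∈ X →
      b = p ∨ b ∈ (Z ++ [x', v, v', y']).toFinset \ sset K (Z ++ [x', v, v', y']) := by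
    intro b hb hbX
    by_cases hbp : b = p
    · exact Or.inl hbp
    rcases (hX b).1 hbX with h2 | h2 | h2
    · refine Or.inr (mem_sdiff.2 ⟨List.mem_toFinset.2 h2, fun hbS => ?_⟩)
      exact noQ_single (d.noQ_S h h8 hX hp hbS (Ne.symm hbp)) hz hpz hb
    · exact (noQ_single (d.noQ_x h h8 hX hp) hz hpz (h2 ▸ hb)).elim
    · exact (noQ_single (d.symm.noQ_x h h8 hX' hp) hz hpz (h2 ▸ hb)).elim
  obtain ⟨u, hu, hzu⟩ : ∃ u ∈ (Z ++ [x', v, v', y']).toFinset \ sset K (Z ++ [x', v, v', y']),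
      ¬ G.Adj z u := by
    by_cases c1 : G.Adj z v'
    · refine ⟨y', d.y'_mem h.hK, fun c2 => ?_⟩
      have nd := d.nd
      have hz' : ¬ (z ∈ Z ++ [x', v, v', y'] ∨ z = x ∨ z = y) := fun e => hz ((hX z).2 e)
      simp only [List.mem_append, List.mem_cons, List.not_mem_nil, or_false, not_or] at hz'
      simp only [List.nodup_cons, List.mem_cons, List.not_mem_nil, or_false, not_or] at nd
      refine d.no3 h (T := [x', v, v', z, y']) ?_ (by simp [d.a1, d.a2, c1.symm, c2])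
        (by simp [HK, d.kx']) (by simp [LK, d.ky']) (by simp [hz'.1.1])
        (by simp [cN, d.kx', d.ky', d.nv, d.nv', hzK])
      simp only [List.nodup_cons, List.mem_cons, List.not_mem_nil, or_false, not_or]
      tauto
    · exact ⟨v', d.v'_mem h.hK, c1⟩
  obtain ⟨J, h1, h2, h3⟩ := pair_of h (z := z) (X := X) (E := ∅) (A := insert p
      (((Z ++ [x', v, v', y']).toFinset \ sset K (Z ++ [x', v, v', y'])).erase u))
    (fun b hb hbX => by
      rcases hnb b hb hbX with e | e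
      · exact e ▸ mem_insert_self _ _
      · exact mem_insert_of_mem (mem_erase.2 ⟨fun e' => hzu (e' ▸ hb), e⟩))
    (by
      have h3 := card_insert_le p
        (((Z ++ [x', v, v', y']).toFinset \ sset K (Z ++ [x', v, v', y'])).erase u)
      have h4 := card_erase_add_one hu
      rw [card_empty]
      omega)
  exact ⟨z, J, hz, hpz, h1, h2, fun b hb => ⟨(h3 b hb).1, (h3 b hb).2.1⟩⟩

theorem Dat.pair_x (h : Ctx G K k) (h8 : 8 ≤ K.card) (d : Dat G K k Z x' v v' y' x w w' y)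
    {X : List V} (hX : ∀ u, u ∈ X ↔ u ∈ Z ++ [x', v, v', y'] ∨ u = x ∨ u = y) :
    ∃ J : Finset V, Ind G J ∧ J.card = 2 ∧ ∀ b ∈ J, b ∉ X ∧ G.Adj w b ∧ b ≠ w' := by
  have hR := d.card_rest h.hK
  have hw := d.w_not_mem hX
  have nd := d.nd
  simp only [List.nodup_cons, List.mem_cons, List.not_mem_nil, or_false, not_or] at nd
  have n1 : ¬ G.Adj w y := fun c => by
    refine d.no3 h (T := [x', v, v', y', x, w, y])
      ?_ (by simp [d.a1, d.a2, d.a3, d.b1, c, h.hK y' d.ky' x d.kx (by tauto)])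
      (by simp [HK, d.kx']) (by simp [LK, d.ky]) (by simp)
      (by simp [cN, d.kx', d.ky', d.kx, d.ky, d.nv, d.nv', d.nw])
    simp only [List.nodup_cons, List.mem_cons, List.not_mem_nil, or_false, not_or]
    tauto
  have n2 : ¬ G.Adj w v' := fun c => by
    refine d.no3 h (T := [x', v, v', w, x])
      ?_ (by simp [d.a1, d.a2, d.b1.symm, c.symm])
      (by simp [HK, d.kx']) (by simp [LK, d.kx]) (by simp)
      (by simp [cN, d.kx', d.kx, d.nv, d.nv', d.nw])
    simp only [List.nodup_cons, List.mem_cons, List.not_mem_nil, or_false, not_or]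
    tauto
  have n3 : ¬ G.Adj w y' := fun c => by
    refine d.no3 h (T := [x', v, v', y', w, x])
      ?_ (by simp [d.a1, d.a2, d.a3, d.b1.symm, c.symm])
      (by simp [HK, d.kx']) (by simp [LK, d.kx]) (by simp)
      (by simp [cN, d.kx', d.ky', d.kx, d.nv, d.nv', d.nw])
    simp only [List.nodup_cons, List.mem_cons, List.not_mem_nil, or_false, not_or]
    tauto
  obtain ⟨J, h1, h2, h3⟩ := pair_of h (z := w) (X := X) (E := {w'}) (A := insert x
      ((((Z ++ [x', v, v', y']).toFinset \ sset K (Z ++ [x', v, v', y'])).erase v').erase y'))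
    (fun b hb hbX => by
      rcases (hX b).1 hbX with e | e | e
      · refine mem_insert_of_mem (mem_erase.2 ⟨fun e' => n3 (e' ▸ hb),
          mem_erase.2 ⟨fun e' => n2 (e' ▸ hb), mem_sdiff.2 ⟨List.mem_toFinset.2 e, fun hbS => ?_⟩⟩⟩)
        exact noQ_single (d.noQ_x h h8 hX hbS) hw hb.symm d.b1.symm
      · exact e ▸ mem_insert_self _ _
      · exact (n1 (e ▸ hb)).elim)
    (by
      have h3 := card_insert_le x
        ((((Z ++ [x', v, v', y']).toFinset \ sset K (Z ++ [x', v, v', y'])).erase v').erase y')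
      have h4 := card_erase_add_one (d.v'_mem h.hK)
      have h5 := card_erase_add_one (mem_erase.2 ⟨d.a3.ne', d.y'_mem h.hK⟩)
      rw [card_singleton]
      omega)
  exact ⟨J, h1, h2, fun b hb => ⟨(h3 b hb).1, (h3 b hb).2.1, by simpa using (h3 b hb).2.2⟩⟩

theorem Dat.far_xy (h : Ctx G K k) (h8 : 8 ≤ K.card) (d : Dat G K k Z x' v v' y' x w w' y)
    {X : List V} (hX : ∀ u, u ∈ X ↔ u ∈ Z ++ [x', v, v', y'] ∨ u = x ∨ u = y) {b b' : V}
    (hb : b ∉ X ∧ G.Adj w b ∧ b ≠ w') (hb' : b' ∉ X ∧ G.Adj w' b' ∧ b' ≠ w) :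
    b ≠ b' ∧ ¬ G.Adj b b' := by
  obtain ⟨b1, b2, b3⟩ := hb
  obtain ⟨c1, c2, c3⟩ := hb'
  have bK : b ∉ K := fun e => b1 (d.KX hX b e)
  have cK : b' ∉ K := fun e => c1 (d.KX hX b' e)
  rw [hX] at b1 c1
  simp only [List.mem_append, List.mem_cons, List.not_mem_nil, or_false, not_or] at b1 c1
  have nd := d.nd
  simp only [List.nodup_cons, List.mem_cons, List.not_mem_nil, or_false, not_or] at nd
  have b4 := b2.ne
  have c4 := c2.ne
  refine ⟨?_, fun a => ?_⟩
  · rintro rfl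
    refine d.no3 h (T := [x, w, b, w', y]) ?_ (by simp [d.b1, d.b3, b2, c2.symm])
      (by simp [HK, d.kx]) (by simp [LK, d.ky]) (by simp [b1.1.1])
      (by simp [cN, d.kx, d.ky, d.nw, d.nw', bK])
    simp only [List.nodup_cons, List.mem_cons, List.not_mem_nil, or_false, not_or]
    tauto
  · have a' := a.ne
    have hL : LP G K (Z ++ [x, w, b, b', w', y]) := by
      refine d.lp h.hK ?_ (by simp [d.b1, d.b3, b2, c2.symm, a])
        (by simp [HK, d.kx]) (by simp [LK, d.ky]) (by simp [b1.1.1, c1.1.1])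
      simp only [List.nodup_cons, List.mem_cons, List.not_mem_nil, or_false, not_or]
      tauto
    have e : cN K [x, w, b, b', w', y] = 4 := by simp [cN, d.kx, d.ky, d.nw, d.nw', bK, cK]
    have e' := d.cn
    refine h.no_miss h8 hL d.kx' ?_ (by rw [cN_append]; omega) (by rw [cN_append]; omega)
    have := d.dj x'
    simp only [List.mem_append, List.mem_cons, List.not_mem_nil, or_false, not_or] at this ⊢
    tauto

theorem Dat.false (h : Ctx G K k) (h8 : 8 ≤ K.card) (d : Dat G K k Z x' v v' y' x w w' y) :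
    False := by
  obtain ⟨X, hX⟩ : ∃ X : List V, ∀ u, u ∈ X ↔ u ∈ Z ++ [x', v, v', y'] ∨ u = x ∨ u = y :=
    ⟨Z ++ [x', v, v', y'] ++ [x, y], fun u => by
      rw [List.mem_append (s := Z ++ [x', v, v', y'])]
      simp⟩
  have hX' : ∀ u, u ∈ X ↔ u ∈ Z ++ [x', v, v', y'] ∨ u = y ∨ u = x := fun u => by
    rw [hX]; tauto
  obtain ⟨Jx, x1, x2, x3⟩ := d.pair_x h h8 hX
  obtain ⟨Jy, y1, y2, y3⟩ := d.symm.pair_x h h8 hX'
  have hS : ∀ p, ∃ (z : V) (J : Finset V), p ∈ sset K (Z ++ [x', v, v', y']) →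
      z ∉ X ∧ G.Adj p z ∧ Ind G J ∧ J.card = 2 ∧ ∀ b ∈ J, b ∉ X ∧ G.Adj z b := by
    intro p
    by_cases hp : p ∈ sset K (Z ++ [x', v, v', y'])
    · obtain ⟨z, J, hz⟩ := d.pair_S h h8 hX hp
      exact ⟨z, J, fun _ => hz⟩
    · exact ⟨p, ∅, fun h => absurd h hp⟩
  choose z J hJ using hS
  have fx : ∀ p ∈ sset K (Z ++ [x', v, v', y']), ∀ b ∈ J p, ∀ b' ∈ Jx, b ≠ b' ∧ ¬ G.Adj b b' :=
    fun p hp b hb b' hb' => (d.noQ_x h h8 hX hp).far (hJ p hp).1 (d.w_not_mem hX)
      ((hJ p hp).2.2.2.2 b hb).1 (x3 b' hb').1 (hJ p hp).2.1 d.b1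
      (Or.inr ((hJ p hp).2.2.2.2 b hb).2) (Or.inr (x3 b' hb').2.1)
  have fy : ∀ p ∈ sset K (Z ++ [x', v, v', y']), ∀ b ∈ J p, ∀ b' ∈ Jy, b ≠ b' ∧ ¬ G.Adj b b' :=
    fun p hp b hb b' hb' => (d.symm.noQ_x h h8 hX' hp).far (hJ p hp).1 (d.symm.w_not_mem hX')
      ((hJ p hp).2.2.2.2 b hb).1 (y3 b' hb').1 (hJ p hp).2.1 d.b3.symm
      (Or.inr ((hJ p hp).2.2.2.2 b hb).2) (Or.inr (y3 b' hb').2.1)
  have fxy : ∀ b ∈ Jx, ∀ b' ∈ Jy, b ≠ b' ∧ ¬ G.Adj b b' :=
    fun b hb b' hb' => d.far_xy h h8 hX (x3 b hb) (y3 b' hb')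
  have sy : ∀ {b b' : V}, (b ≠ b' ∧ ¬ G.Adj b b') → b' ≠ b ∧ ¬ G.Adj b' b :=
    fun hb => ⟨hb.1.symm, fun a => hb.2 a.symm⟩
  have key := tower (ι := V ⊕ Bool) h.ha ((sset K (Z ++ [x', v, v', y'])).disjSum univ)
    (Sum.elim J fun t => if t then Jx else Jy) ?_ ?_
  · rw [sum_disjSum] at key
    simp only [Sum.elim_inl, Sum.elim_inr, Fintype.sum_bool, if_true] at key
    rw [sum_congr rfl fun p hp => (hJ p hp).2.2.2.1] at key
    have h1 := d.card_S h.hK
    have h2 := h.hw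
    simp only [sum_const, smul_eq_mul, Bool.false_eq_true, if_false, x2, y2] at key
    omega
  · rintro (p | t) hp
    · exact (hJ p (inl_mem_disjSum.1 hp)).2.2.1
    · cases t
      · exact y1
      · exact x1
  · rintro (p | t) hp (p' | t') hp' hne b hb b' hb'
    · have hp := inl_mem_disjSum.1 hp
      have hp' := inl_mem_disjSum.1 hp'
      exact (d.noQ_S h h8 hX hp hp' fun e => hne (congrArg _ e)).far (hJ p hp).1 (hJ p' hp').1
        ((hJ p hp).2.2.2.2 b hb).1 ((hJ p' hp').2.2.2.2 b' hb').1 (hJ p hp).2.1 (hJ p' hp').2.1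
        (Or.inr ((hJ p hp).2.2.2.2 b hb).2) (Or.inr ((hJ p' hp').2.2.2.2 b' hb').2)
    · cases t'
      · exact fy p (inl_mem_disjSum.1 hp) b hb b' hb'
      · exact fx p (inl_mem_disjSum.1 hp) b hb b' hb'
    · cases t
      · exact sy (fy p' (inl_mem_disjSum.1 hp') b' hb' b hb)
      · exact sy (fx p' (inl_mem_disjSum.1 hp') b' hb' b hb)
    · cases t <;> cases t'
      · exact absurd rfl hne
      · exact sy (fxy b' hb' b hb)
      · exact fxy b hb b' hb'
      · exact absurd rfl hne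

end ACaseAux

open ACaseAux in
/-- The matching of ears of size two. -/
theorem Ctx.acase (h : Ctx G K k) (h8 : 8 ≤ K.card) {Y : List V} (hY : KP G K Y)
    (hl : Y.length = k + 2) (hE : Ears K 2 Y) : False := by
  have e1 := cK_add_cN K Y
  have e2 := cK_eq hY.1.nd hY.2
  have hw := h.hw
  have hk := h.hk
  obtain ⟨Z, x, w, w', y, x', v, v', y', hperm, hZ, h1, h2, nw, nw', nv, nv'⟩ :=
    hY.1.two_good h.hK hE (fun P' hP' e => by
      by_contra hn
      exact h.hc (hP'.add h.hK (by omega) (by omega) (by omega))) (by omega) (by omega)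
  have nd : (Z ++ [x', v, v', y', x, w, w', y]).Nodup := by
    have := hperm.nodup_iff.1 hY.1.nd
    rwa [List.append_assoc] at this
  have kx' : x' ∈ K := h1.hd x' (by simp)
  have ky' : y' ∈ K := h1.la y' (by simp)
  have kx : x ∈ K := h2.hd x (by simp)
  have ky : y ∈ K := h2.la y (by simp)
  have c1 := h1.ch
  have c2 := h2.ch
  simp only [List.isChain_cons_cons, List.isChain_singleton, and_true] at c1 c2
  have e3 : cN K Y = cN K Z + 4 := by
    rw [cN_perm hperm, cN_append, cN_append]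
    simp [cN, kx', ky', kx, ky, nw, nw', nv, nv']
  have e4 := cK_add_cN K Z
  have e5 : Y.length = Z.length + 8 := by
    rw [hperm.length_eq]
    simp
  refine Dat.false h h8 (Z := Z) ⟨hZ, (List.nodup_append.1 nd).2.1,
    fun u hu hu' => (List.nodup_append.1 nd).2.2 u hu u hu' rfl, kx', ky', kx, ky, nv, nv', nw, nw',
    c1.1, c1.2.1, c1.2.2, c2.1, c2.2.1, c2.2.2, fun u hu => ?_, by omega, by omega⟩
  have := hperm.mem_iff.1 (hY.2 u hu)
  simp only [List.mem_append, List.mem_cons, List.not_mem_nil, or_false] at this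
  rcases this with (e | e | e | e | e) | e | e | e | e
  · exact Or.inl e
  · exact Or.inr (Or.inl e)
  · exact absurd (e ▸ hu) nv
  · exact absurd (e ▸ hu) nv'
  · exact Or.inr (Or.inr (Or.inl e))
  · exact Or.inr (Or.inr (Or.inr (Or.inl e)))
  · exact absurd (e ▸ hu) nw
  · exact absurd (e ▸ hu) nw'
  · exact Or.inr (Or.inr (Or.inr (Or.inr e)))

/-- The case of a clique with at least eight vertices. -/
theorem Ctx.big (h : Ctx G K k) (h8 : 8 ≤ K.card) : False := by
  classical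
  obtain ⟨P0, hP0, hl0⟩ := exists_kp h.hK
  have hspec : ∃ X, KP G K X ∧ X.length = Nat.findGreatest (fun n => ∃ X, KP G K X ∧ X.length = n) k :=
    Nat.findGreatest_spec (P := fun n => ∃ X, KP G K X ∧ X.length = n) h.card_le ⟨P0, hP0, hl0⟩
  obtain ⟨X, hX, hXl⟩ := hspec
  have hXk : X.length ≤ k := hXl ▸ Nat.findGreatest_le k
  refine h.stepA hX hXk fun P hP h1 h2 => ?_
  by_cases hPk : P.length ≤ k
  · exact Nat.findGreatest_is_greatest (P := fun n => ∃ X, KP G K X ∧ X.length = n)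
      (hXl ▸ h1) hPk ⟨P, hP, rfl⟩
  have e1 := cK_add_cN K P
  have e2 := cK_eq hP.1.nd hP.2
  obtain ⟨s, P', s1, s2, hP', hm, hc, hE⟩ := h.reduce hP.1 (s := P.length - (k + 1)) (by omega)
  have hK' : ∀ x ∈ K, x ∈ P' := fun x hx => (hm x hx).1 (hP.2 x hx)
  have e3 := cK_add_cN K P'
  have e4 := cK_eq hP'.nd hK'
  obtain ⟨g, -, g1, g2, g3, g4⟩ := h.shape hP' hc hE
  obtain ⟨e, f1, f2⟩ := gaps_count g3
  have hw := h.hw
  have hs : s = 1 ∨ s = 2 ∨ s = 3 := by omega
  rcases hs with rfl | rfl | rfl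
  · exact h.acase h8 ⟨hP', hK'⟩ (by omega) hE
  · omega
  · omega

end Crest.Agent.R54
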