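import Crest.Agent.R54.Tower

/-!
A certificate checker for finite configurations.
-/

set_option autoImplicit false

namespace Crest.Agent.R54

open Finset

/-- Membership of a pair in a bit mask. -/
def mem (M i j : ℕ) : Bool := M.testBit (32 * i + j)

/-- Insertion of an unordered pair. -/
def ins (M i j : ℕ) : ℕ := M ||| 2 ^ (32 * i + j) ||| 2 ^ (32 * j + i)

/-- The state: named vertices, edges, non-edges, excluded outside paths. -/
structure St where
  /-- number of named vertices -/
  n : ℕ
  /-- edges -/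
  E : ℕ
  /-- non-edges -/
  N : ℕ
  /-- pairs without a common outside neighbour -/
  B1 : ℕ
  /-- pairs without adjacent outside neighbours -/
  B2 : ℕ
  /-- the same with the number of named vertices at the time -/
  L1 : List (ℕ × ℕ × ℕ)
  /-- the same with the number of named vertices at the time -/
  L2 : List (ℕ × ℕ × ℕ)

/-- Digits in base 32 below a leading one. -/
def dig : ℕ → ℕ → List ℕ
  | 0, _ => []
  | f + 1, x => if x ≤ 1 then [] else (x % 32) :: dig f (x / 32)

/-- Consecutive entries are edges. -/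
def chn (E : ℕ) : List ℕ → Bool
  | a :: b :: t => mem E a b && chn E (b :: t)
  | _ => true

/-- Distinct entries below `n`. -/
def ndb (n : ℕ) : ℕ → List ℕ → Bool
  | _, [] => true
  | m, a :: t => decide (a < n) && !m.testBit a && ndb n (m ||| 2 ^ a) t

/-- The number of possible named neighbours. -/
def pd (s : St) (v : ℕ) : ℕ := ((List.range s.n).filter fun y => y != v && !mem s.N v y).length

/-- The number of independent outside neighbours that are guaranteed. -/
def wt (k w : ℕ) (s : St) (v : ℕ) : ℕ :=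
  if pd s v + w ≤ k then 2 else if pd s v < k then 1 else 0

/-- A new named vertex. -/
def St.new (s : St) : St := { s with n := s.n + 1 }

/-- A new edge. -/
def St.edge (s : St) (i j : ℕ) : St := { s with E := ins s.E i j }

/-- One instruction. -/
def step (k w : ℕ) (kl lam : List ℕ) (s : St) : List ℕ → Option (List St)
  | 0 :: l => if l.length == k + 1 && ndb s.n 0 l && chn s.E (l ++ l.take 1) then some [] else none
  | 1 :: l => if l.length == w + 1 && ndb s.n 0 l && l.all (fun a => l.all fun b => a == b || mem s.E a b)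
      then some [] else none
  | 2 :: l => if lam.contains l.length && ndb s.n 0 l && chn s.E l &&
      (l.take 1).all kl.contains && (l.reverse.take 1).all kl.contains && kl.all l.contains
      then some [] else none
  | 3 :: m :: l =>
      if ndb s.n 0 (l.take m) && ndb s.n 0 (l.drop m) &&
        (l.take m).all (fun a => (l.take m).all fun b => a == b || mem s.N a b) &&
        (l.take m).all (fun a => (l.drop m).all fun b => mem s.B1 a b) &&
        (l.drop m).all (fun a => (l.drop m).all fun b => a == b || (mem s.B1 a b && mem s.B2 a b)) &&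
        decide (k + 1 ≤ (l.take m).length + ((l.drop m).map (wt k w s)).sum)
      then some [] else none
  | [4, a, b, z] =>
      match s.L1[32 * a + b]? with
      | some (i, j, m) =>
        if decide (m ≤ z) && decide (z < s.n) && mem s.E i z && mem s.E j z then some [] else none
      | none => none
  | [5, a, b, z, z'] =>
      match s.L2[32 * a + b]? with
      | some (i, j, m) =>
        if decide (m ≤ z) && decide (z < s.n) && decide (m ≤ z') && decide (z' < s.n) &&
          mem s.E i z && mem s.E z z' && mem s.E j z' then some [] else none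
      | none => none
  | [6, i, j] => if decide (i < s.n) && decide (j < s.n) then
      some [s.edge i j, { s with N := ins s.N i j }] else none
  | [7, i, j] => if decide (i < s.n) && decide (j < s.n) && decide (s.n < 32) then
      some [(s.new.edge i s.n).edge j s.n,
        { s with B1 := ins s.B1 i j, L1 := (i, j, s.n) :: s.L1 }] else none
  | [8, i, j] => if decide (i < s.n) && decide (j < s.n) && decide (s.n + 1 < 32) then
      some [((s.new.new.edge i s.n).edge s.n (s.n + 1)).edge j (s.n + 1),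
        { s with B2 := ins s.B2 i j, L2 := (i, j, s.n) :: s.L2 }] else none
  | [9, v] => if decide (v < s.n) && decide (pd s v < k) && decide (s.n < 32) then
      some [s.new.edge v s.n] else none
  | _ => none

/-- Running a certificate on a stack of states. -/
def run (k w : ℕ) (kl lam : List ℕ) : List ℕ → List St → Bool
  | _, [] => true
  | [], _ :: _ => false
  | c :: cs, s :: st =>
    match step k w kl lam s (dig 40 c) with
    | some new => run k w kl lam cs (new ++ st)
    | none => false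

/-- A relation recorded in a bit mask. -/
def Rel (M n : ℕ) (R : ℕ → ℕ → Prop) : Prop :=
  ∀ i j, i < 32 → j < 32 → mem M i j = true → i < n ∧ j < n ∧ R i j

theorem Rel.ins {M n : ℕ} {R : ℕ → ℕ → Prop} (h : Rel M n R) (hn : n ≤ 32) {a b : ℕ}
    (ha : a < n) (hb : b < n) (h1 : R a b) (h2 : R b a) : Rel (ins M a b) n R := by
  intro i j hi hj hm
  simp only [mem, R54.ins, Nat.testBit_or, Nat.testBit_two_pow, Bool.or_eq_true,
    decide_eq_true_eq] at hm
  rcases hm with (hm | hm) | hm
  · exact h i j hi hj hm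
  · obtain ⟨rfl, rfl⟩ : a = i ∧ b = j := by omega
    exact ⟨ha, hb, h1⟩
  · obtain ⟨rfl, rfl⟩ : b = i ∧ a = j := by omega
    exact ⟨hb, ha, h2⟩

theorem Rel.mono {M n n' : ℕ} {R R' : ℕ → ℕ → Prop} (h : Rel M n R) (hn : n ≤ n')
    (hR : ∀ i j, i < n → j < n → R i j → R' i j) : Rel M n' R' := by
  intro i j hi hj hm
  obtain ⟨h1, h2, h3⟩ := h i j hi hj hm
  exact ⟨by omega, by omega, hR i j h1 h2 h3⟩

theorem ndb_spec {n : ℕ} : ∀ {l : List ℕ} {m : ℕ}, ndb n m l = true →
    l.Nodup ∧ ∀ a ∈ l, a < n ∧ m.testBit a = false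
  | [], _, _ => by simp
  | a :: t, m, h => by
    simp only [ndb, Bool.and_eq_true, decide_eq_true_eq, Bool.not_eq_true'] at h
    obtain ⟨h1, h2⟩ := ndb_spec h.2
    simp only [Nat.testBit_or, Nat.testBit_two_pow, Bool.or_eq_false_iff,
      decide_eq_false_iff_not] at h2
    refine ⟨List.nodup_cons.2 ⟨fun ha => (h2 a ha).2.2 rfl, h1⟩, ?_⟩
    intro b hb
    rcases List.mem_cons.1 hb with rfl | hb
    · exact h.1
    · exact ⟨(h2 b hb).1, (h2 b hb).2.1⟩

variable {V : Type} (G : SimpleGraph V)

/-- Not among the first `m` named vertices. -/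
def Out (φ : ℕ → V) (m : ℕ) (z : V) : Prop := ∀ t, t < m → φ t ≠ z

/-- No common outside neighbour. -/
def F1 (φ : ℕ → V) (m i j : ℕ) : Prop :=
  ∀ z, Out φ m z → G.Adj (φ i) z → G.Adj (φ j) z → False

/-- No adjacent outside neighbours. -/
def F2 (φ : ℕ → V) (m i j : ℕ) : Prop :=
  ∀ z z', Out φ m z → Out φ m z' → G.Adj (φ i) z → G.Adj z z' → G.Adj (φ j) z' → False

/-- The meaning of a state. -/
structure Mod (K : Finset V) (kl : List ℕ) (φ : ℕ → V) (s : St) : Prop where
  hn : s.n ≤ 32
  inj : ∀ i j, i < s.n → j < s.n → φ i = φ j → i = j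
  hk1 : ∀ i ∈ kl, i < s.n ∧ φ i ∈ K
  hk2 : ∀ x ∈ K, ∃ i ∈ kl, φ i = x
  hE : Rel s.E s.n fun i j => G.Adj (φ i) (φ j)
  hN : Rel s.N s.n fun i j => ¬ G.Adj (φ i) (φ j)
  hB1 : Rel s.B1 s.n (F1 G φ s.n)
  hB2 : Rel s.B2 s.n (F2 G φ s.n)
  hL1 : ∀ e ∈ s.L1, e.1 < s.n ∧ e.2.1 < s.n ∧ e.2.2 ≤ s.n ∧ F1 G φ e.2.2 e.1 e.2.1
  hL2 : ∀ e ∈ s.L2, e.1 < s.n ∧ e.2.1 < s.n ∧ e.2.2 ≤ s.n ∧ F2 G φ e.2.2 e.1 e.2.1

variable {G} {K : Finset V} {kl : List ℕ} {φ : ℕ → V} {s : St}

theorem Mod.edge (h : Mod G K kl φ s) {i j : ℕ} (hi : i < s.n) (hj : j < s.n)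
    (ha : G.Adj (φ i) (φ j)) : Mod G K kl φ (s.edge i j) :=
  { h with hE := h.hE.ins h.hn hi hj ha ha.symm }

theorem Mod.new (h : Mod G K kl φ s) (hn : s.n < 32) {z : V} (hz : Out φ s.n z) :
    ∃ φ', Mod G K kl φ' s.new ∧ φ' s.n = z ∧ ∀ i, i < s.n → φ' i = φ i := by
  have e : ∀ i, i < s.n → Function.update φ s.n z i = φ i := fun i hi =>
    Function.update_of_ne hi.ne _ _
  have o : ∀ m m' u, m ≤ s.n → m ≤ m' → Out (Function.update φ s.n z) m' u → Out φ m u :=
    fun m m' u hm hm' ho t ht => by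
      rw [← e t (by omega)]
      exact ho t (by omega)
  have f1 : ∀ m m' i j, m ≤ s.n → m ≤ m' → i < s.n → j < s.n → F1 G φ m i j →
      F1 G (Function.update φ s.n z) m' i j := fun m m' i j hm hm' hi hj hf u hu => by
    rw [e i hi, e j hj]
    exact hf u (o m m' u hm hm' hu)
  have f2 : ∀ m m' i j, m ≤ s.n → m ≤ m' → i < s.n → j < s.n → F2 G φ m i j →
      F2 G (Function.update φ s.n z) m' i j := fun m m' i j hm hm' hi hj hf u u' hu hu' => by
    rw [e i hi, e j hj]
    exact hf u u' (o m m' u hm hm' hu) (o m m' u' hm hm' hu')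
  refine ⟨Function.update φ s.n z, ⟨hn, ?_, ?_, ?_, ?_, ?_, ?_, ?_, ?_, ?_⟩, by simp, e⟩
  · intro i j hi hj hij
    change i < s.n + 1 at hi
    change j < s.n + 1 at hj
    rcases Nat.lt_succ_iff_lt_or_eq.1 hi with hi | rfl <;>
      rcases Nat.lt_succ_iff_lt_or_eq.1 hj with hj | hj
    · rw [e i hi, e j hj] at hij
      exact h.inj i j hi hj hij
    · rw [e i hi, hj, Function.update_self] at hij
      exact absurd hij (hz i hi)
    · rw [e j hj, Function.update_self] at hij
      exact absurd hij.symm (hz j hj)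
    · exact hj.symm
  · intro i hi
    obtain ⟨h1, h2⟩ := h.hk1 i hi
    exact ⟨Nat.lt_succ_of_lt h1, by rwa [e i h1]⟩
  · intro x hx
    obtain ⟨i, hi, rfl⟩ := h.hk2 x hx
    exact ⟨i, hi, e i (h.hk1 i hi).1⟩
  · exact h.hE.mono (Nat.le_succ _) fun i j hi hj a => by rwa [e i hi, e j hj]
  · exact h.hN.mono (Nat.le_succ _) fun i j hi hj a => by rwa [e i hi, e j hj]
  · exact h.hB1.mono (Nat.le_succ _) fun i j hi hj => f1 _ _ i j le_rfl (Nat.le_succ _) hi hj
  · exact h.hB2.mono (Nat.le_succ _) fun i j hi hj => f2 _ _ i j le_rfl (Nat.le_succ _) hi hj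
  · intro x hx
    obtain ⟨h1, h2, h3, h4⟩ := h.hL1 x hx
    exact ⟨Nat.lt_succ_of_lt h1, Nat.lt_succ_of_lt h2, Nat.le_succ_of_le h3,
      f1 _ _ _ _ h3 le_rfl h1 h2 h4⟩
  · intro x hx
    obtain ⟨h1, h2, h3, h4⟩ := h.hL2 x hx
    exact ⟨Nat.lt_succ_of_lt h1, Nat.lt_succ_of_lt h2, Nat.le_succ_of_le h3,
      f2 _ _ _ _ h3 le_rfl h1 h2 h4⟩

theorem Mod.chain (h : Mod G K kl φ s) : ∀ {l : List ℕ}, (∀ a ∈ l, a < s.n) → chn s.E l = true →
    (l.map φ).IsChain G.Adj
  | [], _, _ => by simp
  | [a], _, _ => by simp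
  | a :: b :: t, hl, hc => by
    simp only [chn, Bool.and_eq_true] at hc
    have ha := hl a (by simp)
    have hb := hl b (by simp)
    have hn := h.hn
    have := h.chain (l := b :: t) (fun x hx => hl x (List.mem_cons_of_mem _ hx)) hc.2
    rw [List.map_cons, List.map_cons, List.isChain_cons_cons]
    exact ⟨(h.hE a b (by omega) (by omega) hc.1).2.2, this⟩

theorem Mod.nodup (h : Mod G K kl φ s) {l : List ℕ} (hl : ndb s.n 0 l = true) :
    (l.map φ).Nodup :=
  (ndb_spec hl).1.map_on fun a ha b hb e =>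
    h.inj a b ((ndb_spec hl).2 a ha).1 ((ndb_spec hl).2 b hb).1 e

variable [DecidableEq V] [Fintype V] {k : ℕ}

open Classical in
theorem Mod.card_out (h : Mod G K kl φ s) (hd : ∀ v, k ≤ (nb G v).card) {v : ℕ} (hv : v < s.n) :
    k ≤ pd s v + ((nb G (φ v)).filter (Out φ s.n)).card := by
  refine (hd (φ v)).trans ?_
  have : nb G (φ v) ⊆ (((List.range s.n).filter fun y => y != v && !mem s.N v y).map φ).toFinset ∪
      (nb G (φ v)).filter (Out φ s.n) := by
    intro u hu
    by_cases ho : Out φ s.n u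
    · exact mem_union_right _ (mem_filter.2 ⟨hu, ho⟩)
    · simp only [Out, not_forall, not_not] at ho
      obtain ⟨t, ht, rfl⟩ := ho
      have ha := (mem_nb G).1 hu
      refine mem_union_left _ (List.mem_toFinset.2 (List.mem_map.2 ⟨t, ?_, rfl⟩))
      rw [List.mem_filter, List.mem_range]
      refine ⟨ht, ?_⟩
      have hn := h.hn
      simp only [Bool.and_eq_true, bne_iff_ne, ne_eq, Bool.not_eq_true']
      refine ⟨fun e => ha.ne (by rw [e]), ?_⟩
      by_contra hm
      exact (h.hN v t (by omega) (by omega) (by simpa using hm)).2.2 ha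
  refine (card_le_card this).trans ((card_union_le _ _).trans ?_)
  have := List.toFinset_card_le
    (((List.range s.n).filter fun y => y != v && !mem s.N v y).map φ)
  rw [List.length_map] at this
  exact Nat.add_le_add_right this _

theorem Mod.exists_wt (h : Mod G K kl φ s) (c : Ctx G K k) {v : ℕ} (hv : v < s.n) :
    ∃ J : Finset V, Ind G J ∧ J.card = wt k K.card s v ∧
      ∀ b ∈ J, Out φ s.n b ∧ G.Adj (φ v) b := by
  classical
  have h1 := h.card_out c.hd hv
  unfold wt
  split_ifs with h2 h3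
  · obtain ⟨J, hJ, hI, hc⟩ := exists_pair c.hmax (z := φ v)
      (D := (nb G (φ v)).filter (Out φ s.n)) (fun b hb => (mem_nb G).1 (mem_filter.1 hb).1)
      (by omega)
    exact ⟨J, hI, hc, fun b hb =>
      ⟨(mem_filter.1 (hJ hb)).2, (mem_nb G).1 (mem_filter.1 (hJ hb)).1⟩⟩
  · obtain ⟨b, hb⟩ := card_pos.1 (show 0 < ((nb G (φ v)).filter (Out φ s.n)).card by omega)
    refine ⟨{b}, ?_, card_singleton b, ?_⟩
    · intro x hx y hy
      rw [mem_singleton.1 hx, mem_singleton.1 hy]
      exact G.irrefl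
    · intro x hx
      rw [mem_singleton.1 hx]
      exact ⟨(mem_filter.1 hb).2, (mem_nb G).1 (mem_filter.1 hb).1⟩
  · exact ⟨∅, by simp [Ind], rfl, by simp⟩

theorem Mod.tower (h : Mod G K kl φ s) (c : Ctx G K k) {A W : List ℕ} (hA : ndb s.n 0 A = true)
    (hW : ndb s.n 0 W = true) (h1 : ∀ a ∈ A, ∀ b ∈ A, a = b ∨ mem s.N a b = true)
    (h2 : ∀ a ∈ A, ∀ b ∈ W, mem s.B1 a b = true)
    (h3 : ∀ a ∈ W, ∀ b ∈ W, a = b ∨ (mem s.B1 a b = true ∧ mem s.B2 a b = true)) :
    A.length + (W.map (wt k K.card s)).sum ≤ k := by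
  have hn := h.hn
  have lA : ∀ a ∈ A, a < s.n := fun a ha => ((ndb_spec hA).2 a ha).1
  have lW : ∀ a ∈ W, a < s.n := fun a ha => ((ndb_spec hW).2 a ha).1
  have ex : ∀ v, ∃ J : Finset V, v < s.n → Ind G J ∧ J.card = wt k K.card s v ∧
      ∀ b ∈ J, Out φ s.n b ∧ G.Adj (φ v) b := by
    intro v
    by_cases hv : v < s.n
    · obtain ⟨J, hJ⟩ := h.exists_wt c hv
      exact ⟨J, fun _ => hJ⟩
    · exact ⟨∅, fun h => absurd h hv⟩
  choose J hJ using ex
  have cross : ∀ v ∈ W, ∀ b ∈ (A.map φ).toFinset, ∀ b' ∈ J v, b ≠ b' ∧ ¬ G.Adj b b' := by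
    intro v hv b hb b' hb'
    obtain ⟨a, ha, rfl⟩ := List.mem_map.1 (List.mem_toFinset.1 hb)
    obtain ⟨o, ad⟩ := (hJ v (lW v hv)).2.2 b' hb'
    have := lA a ha
    have := lW v hv
    exact ⟨o a (lA a ha), fun x =>
      (h.hB1 a v (by omega) (by omega) (h2 a ha v hv)).2.2 b' o x ad⟩
  have := R54.tower c.ha (insertNone W.toFinset)
    (fun o : Option ℕ => o.elim (A.map φ).toFinset J) ?_ ?_
  · rw [sum_insertNone] at this
    simp only [Option.elim] at this
    rw [List.toFinset_card_of_nodup (h.nodup hA), List.length_map,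
      List.sum_toFinset _ (ndb_spec hW).1] at this
    have e : W.map (fun v => (J v).card) = W.map (wt k K.card s) :=
      List.map_congr_left fun v hv => (hJ v (lW v hv)).2.1
    rwa [e] at this
  · rintro (_ | v) hv
    · intro b hb b' hb'
      obtain ⟨a, ha, rfl⟩ := List.mem_map.1 (List.mem_toFinset.1 hb)
      obtain ⟨a', ha', rfl⟩ := List.mem_map.1 (List.mem_toFinset.1 hb')
      rcases h1 a ha a' ha' with rfl | e
      · exact G.irrefl
      · have := lA a ha
        have := lA a' ha'
        exact (h.hN a a' (by omega) (by omega) e).2.2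
    · exact (hJ v (lW v (by simpa using hv))).1
  · rintro (_ | v) hv (_ | v') hv' hne b hb b' hb'
    · exact absurd rfl hne
    · exact cross v' (by simpa using hv') b hb b' hb'
    · have := cross v (by simpa using hv) b' hb' b hb
      exact ⟨this.1.symm, fun x => this.2 x.symm⟩
    · have m1 : v ∈ W := by simpa using hv
      have m2 : v' ∈ W := by simpa using hv'
      obtain ⟨o, ad⟩ := (hJ v (lW v m1)).2.2 b hb
      obtain ⟨o', ad'⟩ := (hJ v' (lW v' m2)).2.2 b' hb'
      have := lW v m1
      have := lW v' m2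
      rcases h3 v m1 v' m2 with rfl | ⟨e1, e2⟩
      · exact absurd rfl hne
      · refine ⟨?_, fun x => (h.hB2 v v' (by omega) (by omega) e2).2.2 b b' o o' ad x ad'⟩
        rintro rfl
        exact (h.hB1 v v' (by omega) (by omega) e1).2.2 b o ad ad'

theorem Mod.step (h : Mod G K kl φ s) (c : Ctx G K k) {lam : List ℕ}
    (hlam : ∀ P, KP G K P → P.length ∈ lam → False) {d : List ℕ} {new : List St}
    (hs : step k K.card kl lam s d = some new) : ∃ s' ∈ new, ∃ φ', Mod G K kl φ' s' := by
  have hn := h.hn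
  unfold R54.step at hs
  split at hs
  · rename_i l
    exfalso
    split_ifs at hs with hc
    simp only [Bool.and_eq_true, beq_iff_eq] at hc
    obtain ⟨⟨h1, h2⟩, h3⟩ := hc
    have lt : ∀ a ∈ l, a < s.n := fun a ha => ((ndb_spec h2).2 a ha).1
    have h4 := h.chain (l := l ++ l.take 1) (fun a ha => by
      rcases List.mem_append.1 ha with ha | ha
      · exact lt a ha
      · exact lt a (List.mem_of_mem_take ha)) h3
    rw [List.map_append, List.isChain_append] at h4
    refine c.hc ⟨l.map φ, by simpa using h1, h.nodup h2, h4.1, fun a ha b hb => h4.2.2 b hb a ?_⟩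
    cases l with
    | nil => simp at ha
    | cons x t => simpa using ha
  · rename_i l
    exfalso
    split_ifs at hs with hc
    simp only [Bool.and_eq_true, beq_iff_eq, List.all_eq_true, Bool.or_eq_true] at hc
    obtain ⟨⟨h1, h2⟩, h3⟩ := hc
    have := c.hmax (l.map φ).toFinset (by
      intro a ha b hb hab
      obtain ⟨i, hi, rfl⟩ := List.mem_map.1 (List.mem_toFinset.1 ha)
      obtain ⟨j, hj, rfl⟩ := List.mem_map.1 (List.mem_toFinset.1 hb)
      have := ((ndb_spec h2).2 i hi).1
      have := ((ndb_spec h2).2 j hj).1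
      rcases h3 i hi j hj with rfl | e
      · exact absurd rfl hab
      · exact (h.hE i j (by omega) (by omega) e).2.2)
    rw [List.toFinset_card_of_nodup (h.nodup h2), List.length_map] at this
    omega
  · rename_i l
    exfalso
    split_ifs at hs with hc
    simp only [Bool.and_eq_true, List.all_eq_true, List.contains_iff_mem] at hc
    obtain ⟨⟨⟨⟨⟨h1, h2⟩, h3⟩, h4⟩, h5⟩, h6⟩ := hc
    refine hlam (l.map φ) ⟨⟨h.nodup h2, h.chain (fun a ha => ((ndb_spec h2).2 a ha).1) h3, ?_, ?_⟩,
      ?_⟩ (by simpa using h1)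
    · intro x hx
      cases l with
      | nil => simp at hx
      | cons a t =>
        obtain rfl : φ a = x := by simpa using hx
        exact (h.hk1 a (h4 a (by simp))).2
    · intro x hx
      rw [List.getLast?_eq_head?_reverse, ← List.map_reverse] at hx
      generalize l.reverse = l' at hx h5
      cases l' with
      | nil => simp at hx
      | cons a t =>
        obtain rfl : φ a = x := by simpa using hx
        exact (h.hk1 a (h5 a (by simp))).2
    · intro x hx
      obtain ⟨i, hi, rfl⟩ := h.hk2 x hx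
      exact List.mem_map_of_mem (h6 i hi)
  · rename_i m l
    exfalso
    split_ifs at hs with hc
    simp only [Bool.and_eq_true, beq_iff_eq, List.all_eq_true, Bool.or_eq_true,
      decide_eq_true_eq] at hc
    obtain ⟨⟨⟨⟨⟨h1, h2⟩, h3⟩, h4⟩, h5⟩, h6⟩ := hc
    have := h.tower c h1 h2 h3 h4 h5
    omega
  · rename_i a b z
    exfalso
    split at hs
    · rename_i i j m he
      split_ifs at hs with hc
      simp only [Bool.and_eq_true, decide_eq_true_eq] at hc
      obtain ⟨⟨⟨h1, h2⟩, h3⟩, h4⟩ := hc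
      obtain ⟨e1, e2, e3, e4⟩ := h.hL1 _ (List.mem_of_getElem? he)
      simp only at e1 e2 e3 e4
      exact e4 (φ z) (fun t ht e => by have := h.inj t z (by omega) h2 e; omega)
        (h.hE i z (by omega) (by omega) h3).2.2 (h.hE j z (by omega) (by omega) h4).2.2
    · cases hs
  · rename_i a b z z'
    exfalso
    split at hs
    · rename_i i j m he
      split_ifs at hs with hc
      simp only [Bool.and_eq_true, decide_eq_true_eq] at hc
      obtain ⟨⟨⟨⟨⟨⟨h1, h2⟩, h1'⟩, h2'⟩, h3⟩, h4⟩, h5⟩ := hc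
      obtain ⟨e1, e2, e3, e4⟩ := h.hL2 _ (List.mem_of_getElem? he)
      simp only at e1 e2 e3 e4
      exact e4 (φ z) (φ z') (fun t ht e => by have := h.inj t z (by omega) h2 e; omega)
        (fun t ht e => by have := h.inj t z' (by omega) h2' e; omega)
        (h.hE i z (by omega) (by omega) h3).2.2 (h.hE z z' (by omega) (by omega) h4).2.2
        (h.hE j z' (by omega) (by omega) h5).2.2
    · cases hs
  · rename_i i j
    split_ifs at hs with hc
    simp only [Bool.and_eq_true, decide_eq_true_eq] at hc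
    obtain rfl := Option.some.inj hs
    by_cases ha : G.Adj (φ i) (φ j)
    · exact ⟨_, by simp, φ, h.edge hc.1 hc.2 ha⟩
    · exact ⟨{ s with N := ins s.N i j }, by simp, φ,
        { h with hN := h.hN.ins hn hc.1 hc.2 ha fun x => ha x.symm }⟩
  · rename_i i j
    split_ifs at hs with hc
    simp only [Bool.and_eq_true, decide_eq_true_eq] at hc
    obtain ⟨⟨hi, hj⟩, h32⟩ := hc
    obtain rfl := Option.some.inj hs
    by_cases ha : F1 G φ s.n i j
    · refine ⟨{ s with B1 := ins s.B1 i j, L1 := (i, j, s.n) :: s.L1 }, by simp, φ,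
        { h with
          hB1 := h.hB1.ins hn hi hj ha fun z o a b => ha z o b a
          hL1 := ?_ }⟩
      intro e he
      rcases List.mem_cons.1 he with rfl | he
      · exact ⟨hi, hj, le_rfl, ha⟩
      · exact h.hL1 e he
    · simp only [F1, not_forall] at ha
      obtain ⟨z, o, a, b, -⟩ := ha
      obtain ⟨φ', h', e1, e2⟩ := h.new h32 o
      refine ⟨_, by simp, φ', (h'.edge (Nat.lt_succ_of_lt hi) (Nat.lt_succ_self _) ?_).edge
        (Nat.lt_succ_of_lt hj) (Nat.lt_succ_self _) ?_⟩
      · rwa [e1, e2 i hi]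
      · rwa [e1, e2 j hj]
  · rename_i i j
    split_ifs at hs with hc
    simp only [Bool.and_eq_true, decide_eq_true_eq] at hc
    obtain ⟨⟨hi, hj⟩, h32⟩ := hc
    obtain rfl := Option.some.inj hs
    by_cases ha : F2 G φ s.n i j
    · refine ⟨{ s with B2 := ins s.B2 i j, L2 := (i, j, s.n) :: s.L2 }, by simp, φ,
        { h with
          hB2 := h.hB2.ins hn hi hj ha fun z z' o o' a b d => ha z' z o' o d b.symm a
          hL2 := ?_ }⟩
      intro e he
      rcases List.mem_cons.1 he with rfl | he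
      · exact ⟨hi, hj, le_rfl, ha⟩
      · exact h.hL2 e he
    · simp only [F2, not_forall] at ha
      obtain ⟨z, z', o, o', a, b, d, -⟩ := ha
      obtain ⟨φ', h', e1, e2⟩ := h.new (by omega) o
      have o2 : Out φ' s.new.n z' := by
        intro t ht
        change t < s.n + 1 at ht
        rcases Nat.lt_succ_iff_lt_or_eq.1 ht with ht | rfl
        · rw [e2 t ht]
          exact o' t ht
        · rw [e1]
          exact b.ne
      obtain ⟨φ'', h'', e3, e4⟩ := h'.new h32 o2
      change φ'' (s.n + 1) = z' at e3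
      change ∀ i, i < s.n + 1 → φ'' i = φ' i at e4
      have n2 : s.new.new.n = s.n + 2 := rfl
      refine ⟨_, by simp, φ'', ((h''.edge (i := i) (j := s.n) (by omega) (by omega) ?_).edge
        (i := s.n) (j := s.n + 1) (by change _ < s.n + 2; omega) (by change _ < s.n + 2; omega)
        ?_).edge (i := j) (j := s.n + 1) (by change _ < s.n + 2; omega)
        (by change _ < s.n + 2; omega) ?_⟩
      · rwa [e4 i (by omega), e4 s.n (by omega), e1, e2 i hi]
      · rwa [e3, e4 s.n (by omega), e1]
      · rwa [e3, e4 j (by omega), e2 j hj]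
  · rename_i v
    split_ifs at hs with hc
    simp only [Bool.and_eq_true, decide_eq_true_eq] at hc
    obtain ⟨⟨hv, hp⟩, h32⟩ := hc
    obtain rfl := Option.some.inj hs
    obtain ⟨J, -, hJ, hJ'⟩ := h.exists_wt c hv
    have : 0 < J.card := by
      rw [hJ]
      unfold wt
      split_ifs <;> omega
    obtain ⟨z, hz⟩ := card_pos.1 this
    obtain ⟨o, a⟩ := hJ' z hz
    obtain ⟨φ', h', e1, e2⟩ := h.new h32 o
    refine ⟨_, by simp, φ', h'.edge (Nat.lt_succ_of_lt hv) (Nat.lt_succ_self _) ?_⟩
    rwa [e1, e2 v hv]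
  · cases hs

theorem run_sound (c : Ctx G K k) {lam : List ℕ}
    (hlam : ∀ P, KP G K P → P.length ∈ lam → False) :
    ∀ (cs : List ℕ) (st : List St), run k K.card kl lam cs st = true →
      ∀ s ∈ st, ∀ φ, ¬ Mod G K kl φ s
  | _, [], _ => by simp
  | [], _ :: _, h => by simp [run] at h
  | d :: cs, s :: st, h => by
    unfold run at h
    split at h
    · rename_i new he
      have ih := run_sound c hlam cs _ h
      intro s' hs' φ hm
      rcases List.mem_cons.1 hs' with rfl | hs'
      · obtain ⟨t, ht, φ', hm'⟩ := hm.step c hlam he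
        exact ih t (List.mem_append_left _ ht) φ' hm'
      · exact ih s' (List.mem_append_right _ hs') φ hm
    · cases h

end Crest.Agent.R54
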