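import Crest.Agent.R54.Defs

set_option autoImplicit false

namespace Crest.Agent.R54

open Finset

variable {V : Type} [DecidableEq V] {G : SimpleGraph V} {c : ℕ} {F : Finset V}

theorem exists_crit {D : Finset V} (h : ¬ Good G c D) : ∃ F, F ⊆ D ∧ Crit G c F := by
  obtain ⟨F, hF, hmin⟩ := exists_minimal_of_wellFoundedLT
    (fun F : Finset V => F ⊆ D ∧ ¬ Good G c F) ⟨D, Subset.rfl, h⟩
  refine ⟨F, hF.1, hF.2, fun E hE => ?_⟩
  by_contra hE'
  exact hE.2 (hmin ⟨hE.1.trans hF.1, hE'⟩ hE.1)

/-- Independent sets of a critical set expand. -/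
theorem Crit.exp (h : Crit G c F) {I : Finset V} (hI : I ⊆ F) (hi : Ind G I) (hne : I.Nonempty) :
    c * I.card + 1 ≤ (cnb G F I).card := by
  by_contra hcon
  have hsub : cnb G F I ⊆ F := fun v hv => ((mem_cnb G).mp hv).1
  obtain ⟨x, hx⟩ := hne
  have hss : F \ cnb G F I ⊂ F :=
    sdiff_ssubset hsub ⟨x, (mem_cnb G).mpr ⟨hI hx, Or.inl hx⟩⟩
  obtain ⟨I', hI', hi', hc'⟩ := h.2 _ hss
  have hn : ∀ v ∈ I', v ∈ F ∧ v ∉ I ∧ ∀ u ∈ I, ¬ G.Adj u v := by
    intro v hv
    obtain ⟨h1, h2⟩ := mem_sdiff.mp (hI' hv)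
    exact ⟨h1, fun h3 => h2 ((mem_cnb G).mpr ⟨h1, Or.inl h3⟩),
      fun u hu h3 => h2 ((mem_cnb G).mpr ⟨h1, Or.inr ⟨u, hu, h3⟩⟩)⟩
  refine h.1 ⟨I ∪ I', union_subset hI fun v hv => (hn v hv).1, fun a ha b hb hab => ?_, ?_⟩
  · rcases mem_union.mp ha with ha | ha <;> rcases mem_union.mp hb with hb | hb
    · exact hi a ha b hb hab
    · exact (hn b hb).2.2 a ha hab
    · exact (hn a ha).2.2 b hb hab.symm
    · exact hi' a ha b hb hab
  · rw [card_union_of_disjoint (disjoint_right.mpr fun v hv => (hn v hv).2.1), mul_add]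
    have := card_sdiff_add_card_eq_card hsub
    omega

/-- Critical sets are connected. -/
theorem Crit.conn (h : Crit G c F) {R : Finset V} (hR : R ⊆ F) (hne : R.Nonempty)
    (hcl : ∀ a ∈ R, ∀ b ∈ F, G.Adj a b → b ∈ R) : R = F := by
  by_contra hne'
  obtain ⟨I, hI, hi, hc⟩ := h.2 R (ssubset_of_subset_of_ne hR hne')
  obtain ⟨I', hI', hi', hc'⟩ := h.2 _ (sdiff_ssubset hR hne)
  have hn : ∀ v ∈ I', v ∈ F ∧ v ∉ R := fun v hv => mem_sdiff.mp (hI' hv)
  refine h.1 ⟨I ∪ I', union_subset (hI.trans hR) fun v hv => (hn v hv).1,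
    fun a ha b hb hab => ?_, ?_⟩
  · rcases mem_union.mp ha with ha | ha <;> rcases mem_union.mp hb with hb | hb
    · exact hi a ha b hb hab
    · exact (hn b hb).2 (hcl a (hI ha) b (hn b hb).1 hab)
    · exact (hn a ha).2 (hcl b (hI hb) a (hn a ha).1 hab.symm)
    · exact hi' a ha b hb hab
  · rw [card_union_of_disjoint (disjoint_right.mpr fun v hv hv' => (hn v hv).2 (hI hv')), mul_add]
    have := card_sdiff_add_card_eq_card hR
    omega

/-- Critical sets are not bipartite. -/
theorem Crit.not_bip (h : Crit G c F) (hc : 2 ≤ c) {A B : Finset V} (hA : Ind G A) (hB : Ind G B)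
    (hAB : ∀ v ∈ F, v ∈ A ∨ v ∈ B) : False := by
  have h1 : F.card ≤ (F ∩ A).card + (F ∩ B).card := by
    refine le_trans (card_le_card fun v hv => ?_) (card_union_le _ _)
    rcases hAB v hv with h | h
    · exact mem_union_left _ (mem_inter.mpr ⟨hv, h⟩)
    · exact mem_union_right _ (mem_inter.mpr ⟨hv, h⟩)
  have key : ∀ C : Finset V, Ind G C → F.card ≤ 2 * (F ∩ C).card → False := fun C hC hle =>
    h.1 ⟨F ∩ C, inter_subset_left,
      fun a ha b hb => hC a (mem_inter.mp ha).2 b (mem_inter.mp hb).2,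
      hle.trans (Nat.mul_le_mul_right _ hc)⟩
  rcases le_total (F ∩ A).card (F ∩ B).card with h2 | h2
  · exact key B hB (by omega)
  · exact key A hA (by omega)

/-- A critical set without large cliques contains a long cycle through a vertex and all its
neighbours. -/
theorem Crit.long_cycle (h : Crit G c F) (hc : 1 ≤ c)
    (hw : ∀ K, K ⊆ F → Clq G K → K.card ≤ c) :
    ∃ n f, 2 * c + 1 ≤ n ∧ PF G F n f ∧ G.Adj (f (n - 1)) (f 0) ∧
      ∀ y ∈ F, G.Adj (f 0) y → ∃ i, i < n ∧ f i = y := by
  classical
  have hsing : ∀ v ∈ F, c + 1 ≤ (cnb G F {v}).card := fun v hv => by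
    simpa using h.exp (singleton_subset_iff.mpr hv)
      (fun a ha b hb => by rw [mem_singleton.mp ha, mem_singleton.mp hb]; exact G.irrefl)
      (singleton_nonempty v)
  obtain ⟨v₀, hv₀⟩ : F.Nonempty := by
    by_contra hF
    rw [not_nonempty_iff_eq_empty] at hF
    exact h.1 ⟨∅, empty_subset _, fun a ha => absurd ha (notMem_empty a), by simp [hF]⟩
  have hbd : ∀ n f, PF G F n f → n ≤ F.card := fun n f hf => by
    have := card_le_card_of_injOn (s := range n) (t := F) f
      (fun i hi => hf.1 i (mem_range.mp hi))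
      fun i hi j hj => hf.2.1 i j (mem_range.mp hi) (mem_range.mp hj)
    simpa using this
  have h1 : ∃ f, PF G F 1 f := ⟨fun _ => v₀, fun _ _ => hv₀, fun i j _ _ _ => by omega,
    fun i hi => by omega⟩
  set n := Nat.findGreatest (fun n => ∃ f, PF G F n f) F.card with hn
  have hn1 : 1 ≤ n := Nat.le_findGreatest (card_pos.mpr ⟨v₀, hv₀⟩) h1
  have hnP : ∃ f, PF G F n f :=
    Nat.findGreatest_spec (P := fun n => ∃ f, PF G F n f) (card_pos.mpr ⟨v₀, hv₀⟩) h1
  have hon : ∀ f, PF G F n f → ∀ y ∈ F, G.Adj (f 0) y → ∃ t, t < n ∧ f t = y := by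
    intro f hf y hy hadj
    by_contra hcon
    push Not at hcon
    have h2 : PF G F (n + 1) (fun t => if t = 0 then y else f (t - 1)) := by
      refine ⟨fun i hi => ?_, fun i j hi hj hij => ?_, fun i hi => ?_⟩
      · by_cases h0 : i = 0
        · simp [h0, hy]
        · simp only [h0, if_false]; exact hf.1 _ (by omega)
      · by_cases h0 : i = 0 <;> by_cases h0' : j = 0
        · omega
        · simp only [h0, h0', if_true, if_false] at hij
          exact absurd hij.symm (hcon _ (by omega))
        · simp only [h0, h0', if_true, if_false] at hij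
          exact absurd hij (hcon _ (by omega))
        · simp only [h0, h0', if_false] at hij
          have := hf.2.1 _ _ (by omega) (by omega) hij
          omega
      · by_cases h0 : i = 0
        · simpa [h0] using hadj.symm
        · simp only [h0, if_false, Nat.add_one_ne_zero, Nat.add_sub_cancel]
          have := hf.2.2 (i - 1) (by omega)
          rwa [show i - 1 + 1 = i by omega] at this
    have := Nat.le_findGreatest (P := fun n => ∃ f, PF G F n f) (hbd _ _ h2) ⟨_, h2⟩
    omega
  have hQ : ∃ i, i ≤ n ∧ ∃ f, PF G F n f ∧ i < n ∧ G.Adj (f 0) (f i) := by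
    obtain ⟨f, hf⟩ := hnP
    have h2 := hsing _ (hf.1 0 hn1)
    obtain ⟨y, hy, hy0⟩ := exists_mem_ne (s := cnb G F {f 0}) (by omega) (f 0)
    obtain ⟨hyF, hy1 | ⟨u, hu, hy1⟩⟩ := (mem_cnb G).mp hy
    · exact absurd (mem_singleton.mp hy1) hy0
    · rw [mem_singleton.mp hu] at hy1
      obtain ⟨t, ht, rfl⟩ := hon f hf y hyF hy1
      exact ⟨t, ht.le, f, hf, ht, hy1⟩
  set i := Nat.findGreatest (fun i => ∃ f, PF G F n f ∧ i < n ∧ G.Adj (f 0) (f i)) n with hi
  obtain ⟨f, hf, hin, hadj⟩ : ∃ f, PF G F n f ∧ i < n ∧ G.Adj (f 0) (f i) := by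
    obtain ⟨t, ht, hP⟩ := hQ
    exact Nat.findGreatest_spec (P := fun i => ∃ f, PF G F n f ∧ i < n ∧ G.Adj (f 0) (f i)) ht hP
  have hon' : ∀ g, PF G F n g → ∀ y ∈ F, G.Adj (g 0) y → ∃ t, t ≤ i ∧ g t = y := by
    intro g hg y hy hgy
    obtain ⟨t, ht, rfl⟩ := hon g hg y hy hgy
    exact ⟨t, Nat.le_findGreatest ht.le ⟨g, hg, ht, hgy⟩, rfl⟩
  have hi0 : i ≠ 0 := fun h0 => by rw [h0] at hadj; exact G.irrefl hadj
  set D := (range (i + 1)).image f with hD
  have hDc : D.card = i + 1 := by
    rw [hD, card_image_of_injOn, card_range]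
    exact fun a ha b hb => hf.2.1 a b (by have := mem_range.mp ha; omega)
      (by have := mem_range.mp hb; omega)
  have hmD : ∀ t, t ≤ i → f t ∈ D := fun t ht => mem_image_of_mem _ (mem_range.mpr (by omega))
  have hrot : ∀ a, 1 ≤ a → a ≤ i → G.Adj (f 0) (f a) → ∀ y ∈ F, G.Adj (f (a - 1)) y → y ∈ D := by
    intro a ha1 ha2 haa y hy hay
    have hg : PF G F n (fun t => f (if t < a then a - 1 - t else t)) := by
      refine ⟨fun t ht => hf.1 _ (by split_ifs <;> omega), fun s t hs ht hst => ?_, fun t ht => ?_⟩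
      · have := hf.2.1 _ _ (by split_ifs <;> omega) (by split_ifs <;> omega) hst
        split_ifs at this <;> omega
      · by_cases h2 : t + 1 < a
        · simp only [h2, show t < a by omega, if_true]
          have := hf.2.2 (a - 1 - (t + 1)) (by omega)
          rw [show a - 1 - (t + 1) + 1 = a - 1 - t by omega] at this
          exact this.symm
        · by_cases h3 : t < a
          · simp only [h2, h3, if_true, if_false]
            rw [show a - 1 - t = 0 by omega, show t + 1 = a by omega]
            exact haa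
          · simp only [h2, h3, if_false]
            exact hf.2.2 t ht
    obtain ⟨t, ht, rfl⟩ := hon' _ hg y hy (by simpa [show 0 < a by omega] using hay)
    exact hmD _ (by split_ifs <;> omega)
  by_cases hcase : ∃ a b, 1 ≤ a ∧ a ≤ i ∧ G.Adj (f 0) (f a) ∧ 1 ≤ b ∧ b ≤ i ∧ G.Adj (f 0) (f b) ∧
      a ≠ b ∧ ¬ G.Adj (f (a - 1)) (f (b - 1))
  · obtain ⟨a, b, ha1, ha2, ha3, hb1, hb2, hb3, hab, hna⟩ := hcase
    have hne : f (a - 1) ≠ f (b - 1) := fun he => by
      have := hf.2.1 _ _ (by omega) (by omega) he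
      omega
    have h2 := h.exp (I := {f (a - 1), f (b - 1)})
      (insert_subset (hf.1 _ (by omega)) (singleton_subset_iff.mpr (hf.1 _ (by omega))))
      (fun x hx y hy hxy => by
        rcases mem_insert.mp hx with rfl | hx <;> rcases mem_insert.mp hy with rfl | hy
        · exact G.irrefl hxy
        · rw [mem_singleton.mp hy] at hxy; exact hna hxy
        · rw [mem_singleton.mp hx] at hxy; exact hna hxy.symm
        · rw [mem_singleton.mp hx, mem_singleton.mp hy] at hxy; exact G.irrefl hxy)
      (insert_nonempty _ _)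
    have h3 : cnb G F {f (a - 1), f (b - 1)} ⊆ D := by
      intro y hy
      obtain ⟨hyF, hy1 | ⟨u, hu, hy1⟩⟩ := (mem_cnb G).mp hy
      · rcases mem_insert.mp hy1 with rfl | hy1
        · exact hmD _ (by omega)
        · rw [mem_singleton.mp hy1]; exact hmD _ (by omega)
      · rcases mem_insert.mp hu with rfl | hu
        · exact hrot a ha1 ha2 ha3 y hyF hy1
        · rw [mem_singleton.mp hu] at hy1
          exact hrot b hb1 hb2 hb3 y hyF hy1
    have h4 := card_le_card h3
    rw [card_pair hne] at h2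
    refine ⟨i + 1, f, by omega, ⟨fun t ht => hf.1 t (by omega),
      fun s t hs ht => hf.2.1 s t (by omega) (by omega), fun t ht => hf.2.2 t (by omega)⟩,
      hadj.symm, fun y hy hy1 => ?_⟩
    obtain ⟨t, ht, rfl⟩ := hon' f hf y hy hy1
    exact ⟨t, by omega, rfl⟩
  · exfalso
    push Not at hcase
    have h01 : G.Adj (f 0) (f 1) := hf.2.2 0 (by omega)
    have hall : ∀ d, d < i → G.Adj (f 0) (f (i - d)) := by
      intro d
      induction d with
      | zero => exact fun _ => hadj
      | succ d ih =>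
        intro hd
        have := hcase 1 (i - d) le_rfl (by omega) h01 (by omega) (by omega) (ih (by omega))
          (by omega)
        rwa [show i - d - 1 = i - (d + 1) by omega] at this
    have hall' : ∀ a, 1 ≤ a → a ≤ i → G.Adj (f 0) (f a) := fun a h1 h2 => by
      have := hall (i - a) (by omega)
      rwa [show i - (i - a) = a by omega] at this
    have hic : i ≤ c := by
      have := hw ((range i).image f) (fun x hx => by
        obtain ⟨t, ht, rfl⟩ := mem_image.mp hx
        exact hf.1 t (by have := mem_range.mp ht; omega)) fun x hx y hy hxy => by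
          obtain ⟨s, hs, rfl⟩ := mem_image.mp hx
          obtain ⟨t, ht, rfl⟩ := mem_image.mp hy
          have hs := mem_range.mp hs
          have ht := mem_range.mp ht
          exact hcase (s + 1) (t + 1) (by omega) (by omega) (hall' _ (by omega) (by omega))
            (by omega) (by omega) (hall' _ (by omega) (by omega))
            (fun he => hxy (by rw [show s = t by omega]))
      rwa [card_image_of_injOn (fun a ha b hb => hf.2.1 a b (by have := mem_range.mp ha; omega)
        (by have := mem_range.mp hb; omega)), card_range] at this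
    have hsubD : ∀ s, s < i → cnb G F {f s} ⊆ D := by
      intro s hs y hy
      obtain ⟨hyF, hy1 | ⟨u, hu, hy1⟩⟩ := (mem_cnb G).mp hy
      · rw [mem_singleton.mp hy1]; exact hmD _ hs.le
      · rw [mem_singleton.mp hu] at hy1
        exact hrot (s + 1) (by omega) (by omega) (hall' _ (by omega) (by omega)) y hyF hy1
    have hfull : ∀ s, s < i → ∀ y ∈ D, f s ≠ y → G.Adj (f s) y := by
      intro s hs y hy hne
      have h2 := eq_of_subset_of_card_le (hsubD s hs)
        (by have := hsing _ (hf.1 s (by omega)); omega)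
      rw [← h2] at hy
      obtain ⟨-, hy1 | ⟨u, hu, hy1⟩⟩ := (mem_cnb G).mp hy
      · exact absurd (mem_singleton.mp hy1).symm hne
      · rwa [mem_singleton.mp hu] at hy1
    have h3 := hw D (fun x hx => by
      obtain ⟨t, ht, rfl⟩ := mem_image.mp hx
      exact hf.1 t (by have := mem_range.mp ht; omega)) fun x hx y hy hxy => by
        obtain ⟨s, hs, rfl⟩ := mem_image.mp hx
        obtain ⟨t, ht, rfl⟩ := mem_image.mp hy
        have hs' := mem_range.mp hs
        have ht' := mem_range.mp ht
        by_cases h4 : s < i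
        · exact hfull s h4 _ hy hxy
        · have h5 : t < i := by
            by_contra h5
            exact hxy (by rw [show s = t by omega])
          exact (hfull t h5 _ hx hxy.symm).symm
    have h4 := card_le_card (hsubD 0 (by omega))
    have h5 := hsing _ (hf.1 0 hn1)
    omega

theorem hasCyc_of_PF {n : ℕ} {f : ℕ → V} (h : PF G F n f) (hl : G.Adj (f (n - 1)) (f 0)) :
    HasCyc G n := by
  refine ⟨(List.range n).map f, by simp, ?_, ?_, ?_⟩
  · exact List.Nodup.map_on (fun a ha b hb => h.2.1 a b (List.mem_range.mp ha)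
      (List.mem_range.mp hb)) List.nodup_range
  · rw [List.isChain_iff_getElem]
    intro i hi
    simp only [List.getElem_map, List.getElem_range]
    exact h.2.2 i (by simpa using hi)
  · intro a ha b hb
    rcases n with _ | n
    · simp at ha
    · have h1 : a = f 0 := by
        rw [List.range_succ_eq_map] at ha
        simpa [eq_comm] using ha
      have h2 : b = f n := by
        rw [List.range_succ] at hb
        simpa [eq_comm] using hb
      rw [h1, h2]
      exact hl

end Crest.Agent.R54
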