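import Mathlib

/-!
Definitions for row 54 (cycle versus clique Ramsey numbers).  Throughout `k = m - 1`.
-/

set_option autoImplicit false

namespace Crest.Agent.R54

open Finset

variable {V : Type} (G : SimpleGraph V)

/-- A cycle with `n` vertices, as a list. -/
def HasCyc (n : ℕ) : Prop :=
  ∃ l : List V, l.length = n ∧ l.Nodup ∧ l.IsChain G.Adj ∧
    ∀ a ∈ l.head?, ∀ b ∈ l.getLast?, G.Adj b a

/-- Independent sets. -/
def Ind (I : Finset V) : Prop := ∀ a ∈ I, ∀ b ∈ I, ¬ G.Adj a b

/-- Cliques. -/
def Clq (K : Finset V) : Prop := ∀ a ∈ K, ∀ b ∈ K, a ≠ b → G.Adj a b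

open Classical in
/-- The neighbourhood. -/
noncomputable def nb [Fintype V] (v : V) : Finset V := univ.filter (G.Adj v)

open Classical in
/-- The closed neighbourhood of `I` inside `F`. -/
noncomputable def cnb (F I : Finset V) : Finset V :=
  F.filter fun v => v ∈ I ∨ ∃ u ∈ I, G.Adj u v

theorem mem_nb [Fintype V] {v u : V} : u ∈ nb G v ↔ G.Adj v u := by
  simp [nb]

theorem mem_cnb {F I : Finset V} {v : V} :
    v ∈ cnb G F I ↔ v ∈ F ∧ (v ∈ I ∨ ∃ u ∈ I, G.Adj u v) := by
  simp [cnb]

/-- `D` has an independent subset with at least a `1 / c` fraction of its vertices. -/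
def Good (c : ℕ) (D : Finset V) : Prop := ∃ I, I ⊆ D ∧ Ind G I ∧ D.card ≤ c * I.card

/-- Minimal sets that are not good. -/
def Crit (c : ℕ) (F : Finset V) : Prop := ¬ Good G c F ∧ ∀ D, D ⊂ F → Good G c D

/-- A path with `n` vertices inside `F`, as a function. -/
def PF (F : Finset V) (n : ℕ) (f : ℕ → V) : Prop :=
  (∀ i, i < n → f i ∈ F) ∧ (∀ i j, i < n → j < n → f i = f j → i = j) ∧
    ∀ i, i + 1 < n → G.Adj (f i) (f (i + 1))

/-! ### Paths with both ends in a clique -/

variable (K : Finset V)

/-- The list is empty or starts in `K`. -/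
def HK (l : List V) : Prop := ∀ x ∈ l.head?, x ∈ K

/-- The list is empty or ends in `K`. -/
def LK (l : List V) : Prop := ∀ x ∈ l.getLast?, x ∈ K

/-- A (possibly empty) path with both ends in `K`. -/
structure LP (P : List V) : Prop where
  nd : P.Nodup
  ch : P.IsChain G.Adj
  hd : HK K P
  la : LK K P

/-- A path with both ends in `K` that contains `K`. -/
def KP (P : List V) : Prop := LP G K P ∧ ∀ x ∈ K, x ∈ P

/-- `p` is the cyclic successor on `P` of a vertex of `K`. -/
def Succ (P : List V) (p : V) : Prop := ∃ α β, P = α ++ p :: β ∧ LK K α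

/-- All maximal segments of `P` outside `K` have at least `s` vertices. -/
def Ears (s : ℕ) (P : List V) : Prop :=
  ∀ α E γ, P = α ++ E ++ γ → α ≠ [] → γ ≠ [] → LK K α → HK K γ → E ≠ [] → (∀ v ∈ E, v ∉ K) →
    s ≤ E.length

/-- No path from `p` to `p'` with one to four inner vertices, all outside `X`. -/
def NoQ (X : List V) (p p' : V) : Prop :=
  ∀ Q : List V, Q ≠ [] → Q.length ≤ 4 → Q.Nodup → (∀ v ∈ Q, v ∉ X) →
    ¬ (p :: (Q ++ [p'])).IsChain G.Adj

variable [DecidableEq V]

/-- The number of vertices in `K`. -/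
def cK (P : List V) : ℕ := P.countP fun v => decide (v ∈ K)

/-- The number of vertices outside `K`. -/
def cN (P : List V) : ℕ := P.countP fun v => decide (v ∉ K)

open Classical in
/-- The set of successors. -/
noncomputable def sset (P : List V) : Finset V := P.toFinset.filter (Succ K P)

theorem mem_sset {P : List V} {p : V} : p ∈ sset K P ↔ Succ K P p := by
  simp only [sset, mem_filter, List.mem_toFinset, and_iff_right_iff_imp]
  rintro ⟨α, β, rfl, -⟩
  simp

/-- The membership pattern of a path with the given gaps between consecutive vertices of `K`. -/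
def pat : List ℕ → List Bool
  | [] => [true]
  | a :: g => true :: (List.replicate a false ++ pat g)

/-- The number of free vertices of `K` (no gap on either side); `p` is the previous gap. -/
def fr : ℕ → List ℕ → ℕ
  | p, [] => if p = 0 then 1 else 0
  | p, a :: g => (if p = 0 ∧ a = 0 then 1 else 0) + fr a g

/-- The standing assumptions of the case of a large clique. -/
structure Ctx [Fintype V] (k : ℕ) : Prop where
  hk : 3 ≤ k
  hc : ¬ HasCyc G (k + 1)
  ha : ∀ I, Ind G I → I.card ≤ k
  hd : ∀ v, k ≤ (nb G v).card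
  hK : Clq G K
  hmax : ∀ K', Clq G K' → K'.card ≤ K.card
  hw : k + 1 ≤ 2 * K.card

end Crest.Agent.R54
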