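import Crest.Agent.R54.Defs

set_option autoImplicit false

namespace Crest.Agent.R54

open Finset

variable {V : Type} [DecidableEq V] {G : SimpleGraph V} {K : Finset V} {k : ℕ}

theorem lp_cK_card {P : List V} (h : P.Nodup) : cK K P = (P.toFinset.filter (· ∈ K)).card := by
  rw [cK, List.countP_eq_length_filter, ← List.toFinset_card_of_nodup (h.filter _)]
  congr 1
  ext x
  simp

omit [DecidableEq V] in
theorem lp_HK_append {α γ : List V} (hα : HK K α) (hγ : HK K γ) : HK K (α ++ γ) := by
  cases α with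
  | nil => exact hγ
  | cons a t => exact hα

omit [DecidableEq V] in
theorem lp_HK_left {α γ : List V} (h : HK K (α ++ γ)) : HK K α := by
  cases α with
  | nil => simp [HK]
  | cons a t => exact h

omit [DecidableEq V] in
theorem lp_LK_append {α γ : List V} (hα : LK K α) (hγ : LK K γ) : LK K (α ++ γ) := by
  intro x hx
  rw [List.getLast?_append] at hx
  cases e : γ.getLast? with
  | none => exact hα x (by simpa [e] using hx)
  | some y => exact hγ x (by simpa [e] using hx)

omit [DecidableEq V] in
theorem lp_LK_right {α γ : List V} (h : LK K (α ++ γ)) : LK K γ := fun x hx =>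
  h x (List.mem_getLast?_append_of_mem_getLast? hx)

omit [DecidableEq V] in
theorem lp_chain (hK : Clq G K) {α γ : List V} (h : (α ++ γ).Nodup) (h1 : α.IsChain G.Adj)
    (h2 : γ.IsChain G.Adj) (hα : LK K α) (hγ : HK K γ) : (α ++ γ).IsChain G.Adj :=
  h1.append h2 fun x hx y hy => hK x (hα x hx) y (hγ y hy) ((List.nodup_append.1 h).2.2 x
    (List.mem_of_mem_getLast? hx) y (List.mem_of_mem_head? hy))

omit [DecidableEq V] in
theorem lp_chain_rev {P : List V} (h : P.IsChain G.Adj) : P.reverse.IsChain G.Adj :=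
  List.isChain_reverse.2 (h.imp fun _ _ h => h.symm)

omit [DecidableEq V] in
theorem lp_toList (hK : Clq G K) {S : Finset V} (hS : S ⊆ K) : LP G K S.toList :=
  ⟨S.nodup_toList, (List.Pairwise.imp_of_mem (fun ha hb h => hK _ (hS (mem_toList.1 ha)) _
      (hS (mem_toList.1 hb)) h) S.nodup_toList).isChain,
    fun _ hx => hS (mem_toList.1 (List.mem_of_mem_head? hx)),
    fun _ hx => hS (mem_toList.1 (List.mem_of_mem_getLast? hx))⟩

omit [DecidableEq V] in
theorem lp_ext (hK : Clq G K) {α b c Q : List V} {p p' : V} (h : LP G K (α ++ p :: (b ++ p' :: c)))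
    (hα : LK K α) (hb : LK K (p :: b)) (hQ : Q.Nodup) (hd : ∀ v ∈ Q, v ∉ α ++ p :: (b ++ p' :: c))
    (hch : (p :: (Q ++ [p'])).IsChain G.Adj) :
    ∃ P', LP G K P' ∧ P'.Perm (α ++ p :: (b ++ p' :: c) ++ Q) := by
  have hperm : (α ++ ((p :: b).reverse ++ (Q ++ p' :: c))).Perm (α ++ p :: (b ++ p' :: c) ++ Q) := by
    rw [List.append_assoc, ← List.cons_append, List.append_assoc]
    exact ((List.reverse_perm _).append List.perm_append_comm).append_left _
  have hnd := hperm.nodup_iff.2
    (List.nodup_append.2 ⟨h.nd, hQ, fun a ha b hb e => hd b hb (e ▸ ha)⟩)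
  have h1 : HK K ((p :: b).reverse ++ (Q ++ p' :: c)) := by
    intro x hx
    rw [List.head?_append, List.head?_reverse, List.getLast?_eq_some_getLast (List.cons_ne_nil _ _)]
      at hx
    exact hb x (by rw [List.getLast?_eq_some_getLast (List.cons_ne_nil _ _)]; simpa using hx)
  have h2 : (p :: b ++ p' :: c).IsChain G.Adj := h.ch.right_of_append
  refine ⟨_, ⟨hnd, lp_chain hK hnd h.ch.left_of_append ?_ hα h1, ?_, fun x hx => h.la x ?_⟩, hperm⟩
  · rw [List.reverse_cons, List.append_assoc, List.singleton_append, List.isChain_split]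
    exact ⟨by simpa using lp_chain_rev h2.left_of_append,
      (List.isChain_split (l₁ := p :: Q)).2 ⟨hch, h2.right_of_append⟩⟩
  · exact lp_HK_append (lp_HK_left h.hd) h1
  · rw [← List.cons_append, ← List.append_assoc]
    rw [← List.append_assoc, ← List.append_assoc] at hx
    simpa only [List.getLast?_append, List.getLast?_eq_some_getLast (List.cons_ne_nil p' c),
      Option.some_or] using hx

omit [DecidableEq V] in
theorem lp_succ_concat (L : List V) (z p : V) :
    Succ K (L ++ [z]) p ↔ Succ K L p ∨ (p = z ∧ LK K L) := by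
  constructor
  · rintro ⟨α, β, e, hα⟩
    rcases β.eq_nil_or_concat' with rfl | ⟨β', y, rfl⟩
    · obtain ⟨rfl, e2⟩ := List.append_inj' e rfl
      exact Or.inr ⟨(List.cons.inj e2).1.symm, hα⟩
    · rw [← List.cons_append, ← List.append_assoc] at e
      exact Or.inl ⟨α, β', (List.append_inj' e rfl).1, hα⟩
  · rintro (⟨α, β, rfl, hα⟩ | ⟨rfl, h⟩)
    · exact ⟨α, β ++ [z], by simp, hα⟩
    · exact ⟨L, [], rfl, h⟩

open Classical in
theorem lp_card_sset {P : List V} (h : P.Nodup) :
    (sset K P).card + (if LK K P then 1 else 0) = 1 + cK K P := by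
  induction P using List.reverseRecOn with
  | nil => simp [sset, LK, cK]
  | append_singleton L z ih =>
    obtain ⟨h1, -, h2⟩ := List.nodup_append.1 h
    have h3 : z ∉ sset K L := fun hz =>
      h2 z (List.mem_toFinset.1 (mem_filter.1 hz).1) z (by simp) rfl
    have h4 : (sset K (L ++ [z])).card = (sset K L).card + if LK K L then 1 else 0 := by
      split_ifs with hL
      · rw [← card_insert_of_notMem h3]
        congr 1
        ext p
        simp [mem_sset, lp_succ_concat, hL, or_comm]
      · rw [add_zero]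
        congr 1
        ext p
        simp [mem_sset, lp_succ_concat, hL]
    have h5 : LK K (L ++ [z]) ↔ z ∈ K := by simp [LK]
    rw [h4, ih h1]
    simp only [cK, List.countP_append, h5]
    by_cases hz : z ∈ K <;> simp [hz, add_assoc]

theorem cK_add_cN (K : Finset V) (P : List V) : cK K P + cN K P = P.length := by
  rw [List.length_eq_countP_add_countP (fun v => decide (v ∈ K)), cK, cN]
  simp

theorem cK_le {P : List V} (h : P.Nodup) : cK K P ≤ K.card := by
  rw [lp_cK_card h]
  exact card_le_card fun x hx => (mem_filter.1 hx).2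

theorem cK_eq {P : List V} (h : P.Nodup) (hK : ∀ x ∈ K, x ∈ P) : cK K P = K.card := by
  rw [lp_cK_card h]
  congr 1
  ext x
  simpa using hK x

theorem cK_lt {P : List V} (h : P.Nodup) {x : V} (hx : x ∈ K) (hP : x ∉ P) : cK K P < K.card := by
  rw [lp_cK_card h]
  exact card_lt_card ⟨fun x hx => (mem_filter.1 hx).2, fun h' => hP (by simpa [hx] using h' hx)⟩

theorem LP.cut (hK : Clq G K) {α E γ : List V} (h : LP G K (α ++ E ++ γ)) (hα : LK K α)
    (hγ : HK K γ) : LP G K (α ++ γ) := by
  have h1 := h.nd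
  have h2 := h.ch
  rw [List.append_assoc] at h1 h2
  have h3 : (α ++ γ).Nodup :=
    h1.sublist ((List.Sublist.refl α).append (List.sublist_append_right E γ))
  exact ⟨h3, lp_chain hK h3 h2.left_of_append h2.right_of_append.right_of_append hα hγ,
    lp_HK_append (lp_HK_left (by simpa only [List.append_assoc] using h.hd)) hγ,
    lp_LK_append hα (lp_LK_right h.la)⟩

theorem LP.append (hK : Clq G K) {P Q : List V} (hP : LP G K P) (hQ : LP G K Q)
    (hd : ∀ v ∈ P, v ∉ Q) : LP G K (P ++ Q) := by
  have h3 : (P ++ Q).Nodup := List.nodup_append.2 ⟨hP.nd, hQ.nd, fun a ha b hb e => hd a ha (e ▸ hb)⟩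
  exact ⟨h3, lp_chain hK h3 hP.ch hQ.ch hP.la hQ.hd, lp_HK_append hP.hd hQ.hd,
    lp_LK_append hP.la hQ.la⟩

theorem LP.reverse {P : List V} (h : LP G K P) : LP G K P.reverse := by
  exact ⟨List.nodup_reverse.2 h.nd, lp_chain_rev h.ch, by simpa [HK, LK] using h.la,
    by simpa [HK, LK] using h.hd⟩

theorem LP.hasCyc (hK : Clq G K) {P : List V} (h : LP G K P) (h2 : 2 ≤ P.length) :
    HasCyc G P.length := by
  refine ⟨P, rfl, h.nd, h.ch, fun a ha b hb => hK b (h.la b hb) a (h.hd a ha) ?_⟩
  match P, h2 with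
  | x :: y :: t, _ =>
    obtain rfl : x = a := by simpa using ha
    rintro rfl
    rw [List.getLast?_cons_cons] at hb
    exact (List.nodup_cons.1 h.nd).1 (List.mem_of_mem_getLast? hb)

theorem exists_kp (hK : Clq G K) : ∃ P, KP G K P ∧ P.length = K.card := by
  exact ⟨K.toList, ⟨lp_toList hK Subset.rfl, fun x hx => mem_toList.2 hx⟩, length_toList K⟩

/-- Unused vertices of `K` can be appended. -/
theorem LP.add (hK : Clq G K) {P : List V} (h : LP G K P) {n : ℕ} (h2 : 2 ≤ n)
    (h3 : P.length ≤ n) (h4 : n ≤ cN K P + K.card) : HasCyc G n := by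
  have h5 : n - P.length ≤ (K \ P.toFinset).card := by
    have e1 := cK_add_cN K P
    have e2 := card_sdiff_add_card_inter K P.toFinset
    rw [lp_cK_card h.nd, filter_mem_eq_inter, inter_comm] at e1
    omega
  obtain ⟨S, hS, hc⟩ := exists_subset_card_eq h5
  have h6 := h.append hK (lp_toList hK (hS.trans sdiff_subset)) fun v hv hv' =>
    (mem_sdiff.1 (hS (mem_toList.1 hv'))).2 (List.mem_toFinset.2 hv)
  have h7 : (P ++ S.toList).length = n := by
    rw [List.length_append, length_toList]
    omega
  exact h7 ▸ h6.hasCyc hK (by omega)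

/-- A path between two successors can be absorbed. -/
theorem LP.ext (hK : Clq G K) {P Q : List V} (h : LP G K P) {p p' : V} (hp : Succ K P p)
    (hp' : Succ K P p') (hne : p ≠ p') (hQ : Q.Nodup) (hd : ∀ v ∈ Q, v ∉ P)
    (hch : (p :: (Q ++ [p'])).IsChain G.Adj) : ∃ P', LP G K P' ∧ P'.Perm (P ++ Q) := by
  obtain ⟨α, β, e, hα⟩ := hp
  obtain ⟨α', β', e', hα'⟩ := hp'
  rcases List.append_eq_append_iff.1 (e.symm.trans e') with ⟨a, e1, e2⟩ | ⟨a, e1, e2⟩
  · cases a with
    | nil => exact absurd (List.cons.inj e2).1 hne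
    | cons x b =>
      obtain ⟨rfl, rfl⟩ := List.cons.inj e2
      subst e e1
      exact lp_ext hK h hα (lp_LK_right hα') hQ hd hch
  · cases a with
    | nil => exact absurd (List.cons.inj e2).1.symm hne
    | cons x b =>
      obtain ⟨rfl, rfl⟩ := List.cons.inj e2
      subst e' e1
      obtain ⟨P', h1, h2⟩ := lp_ext hK h hα' (lp_LK_right hα) (List.nodup_reverse.2 hQ)
        (fun v hv => hd v (List.mem_reverse.1 hv)) (by simpa using lp_chain_rev hch)
      exact ⟨P', h1, h2.trans ((List.reverse_perm Q).append_left _)⟩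

theorem LP.card_sset {P : List V} (h : LP G K P) : (sset K P).card = cK K P := by
  have := lp_card_sset (K := K) h.nd
  rw [if_pos h.la] at this
  omega

/-- The successor of a vertex outside `K` is not a successor of a vertex of `K`. -/
theorem not_succ {α β : List V} {u p : V} (h : (α ++ u :: p :: β).Nodup) (hu : u ∉ K) :
    ¬ Succ K (α ++ u :: p :: β) p := by
  rintro ⟨α', β', e, hα⟩
  rw [List.append_cons] at h e
  have h1 : p ∉ α ++ [u] := fun hp => (List.nodup_append.1 h).2.2 p hp p (by simp) rfl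
  have h2 : p ∉ β := (List.nodup_cons.1 (List.nodup_append.1 h).2.1).1
  obtain ⟨rfl, -⟩ := (List.append_cons_inj_of_notMem h1 h2).1 e
  exact hu (hα u (by simp))

variable [Fintype V]

theorem Ctx.card_le (h : Ctx G K k) : K.card ≤ k := by
  by_contra hk
  have h3 := h.hk
  exact h.hc (LP.add h.hK (P := []) ⟨by simp, by simp, by simp [HK], by simp [LK]⟩ (by omega)
    (by simp) (by omega))

/-- Short ears can be dropped. -/
theorem Ctx.reduce (h : Ctx G K k) {P : List V} (hP : LP G K P) {s : ℕ}
    (hs : cN K P + K.card = k + 1 + s) :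
    ∃ s' P', 1 ≤ s' ∧ s' ≤ s ∧ LP G K P' ∧ (∀ x ∈ K, x ∈ P ↔ x ∈ P') ∧
      cN K P' + K.card = k + 1 + s' ∧ Ears K (s' + 1) P' := by
  induction s using Nat.strong_induction_on generalizing P with
  | _ s ih =>
    rcases Nat.eq_zero_or_pos s with rfl | hs0
    · have h1 := cK_add_cN K P
      have h2 := cK_le (K := K) hP.nd
      have h3 := h.hk
      exact absurd (hP.add h.hK (by omega) (by omega) (by omega)) h.hc
    by_cases he : Ears K (s + 1) P
    · exact ⟨s, P, hs0, le_rfl, hP, fun _ _ => Iff.rfl, hs, he⟩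
    simp only [Ears, not_forall, not_le] at he
    obtain ⟨α, E, γ, rfl, -, -, hα, hγ, hE, hE', hl⟩ := he
    have h1 : cN K (α ++ E ++ γ) = cN K (α ++ γ) + E.length := by
      have : E.countP (fun v => decide (v ∉ K)) = E.length :=
        List.countP_eq_length.2 fun v hv => by simpa using hE' v hv
      simp only [cN, List.countP_append, this]
      omega
    have h2 := List.length_pos_iff.2 hE
    obtain ⟨s', P', a1, a2, a3, a4, a5⟩ := ih (s - E.length) (by omega) (hP.cut h.hK hα hγ)
      (by omega)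
    refine ⟨s', P', a1, by omega, a3, fun x hx => ?_, a5⟩
    have h3 : x ∉ E := fun hE => hE' x hE hx
    rw [← a4 x hx]
    simp [h3]

end Crest.Agent.R54
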