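import Crest.Agent.R54.AB

set_option autoImplicit false

namespace Crest.Agent.R54

open Finset

variable {V : Type} [DecidableEq V] [Fintype V] {G : SimpleGraph V} {k : ℕ}

open Classical in
/-- The vertices at distance exactly `i` from `v`. -/
noncomputable def layer (G : SimpleGraph V) (v : V) (i : ℕ) : Finset V :=
  univ.filter fun u => G.Reachable v u ∧ G.dist v u = i

theorem mem_layer {v u : V} {i : ℕ} :
    u ∈ layer G v i ↔ G.Reachable v u ∧ G.dist v u = i := by
  simp [layer]

theorem layer_unique {v u : V} {i j : ℕ} (hi : u ∈ layer G v i) (hj : u ∈ layer G v j) :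
    i = j := by
  rw [mem_layer] at hi hj
  omega

theorem layer_zero {v u : V} : u ∈ layer G v 0 ↔ u = v := by
  rw [mem_layer]
  constructor
  · rintro ⟨h1, h2⟩
    exact (h1.dist_eq_zero_iff.mp h2).symm
  · rintro rfl
    exact ⟨SimpleGraph.Reachable.refl _, SimpleGraph.dist_self⟩

theorem layer_one {v u : V} : u ∈ layer G v 1 ↔ G.Adj v u := by
  rw [mem_layer]
  constructor
  · rintro ⟨-, h2⟩
    exact SimpleGraph.dist_eq_one_iff_adj.mp h2
  · intro h
    exact ⟨h.reachable, SimpleGraph.dist_eq_one_iff_adj.mpr h⟩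

theorem layer_adj {v u w : V} {i : ℕ} (hu : u ∈ layer G v i) (h : G.Adj u w) :
    ∃ j, j ≤ i + 1 ∧ w ∈ layer G v j := by
  rw [mem_layer] at hu
  obtain ⟨h1, h2⟩ := hu
  obtain ⟨p, hp⟩ := h1.exists_walk_length_eq_dist
  refine ⟨G.dist v w, ?_, mem_layer.mpr ⟨h1.trans h.reachable, rfl⟩⟩
  have := SimpleGraph.dist_le (p.concat h)
  rw [SimpleGraph.Walk.length_concat] at this
  omega

theorem exists_par (v u : V) :
    ∃ w, ∀ i, u ∈ layer G v (i + 1) → G.Adj u w ∧ w ∈ layer G v i := by
  by_cases hu : ∃ i, u ∈ layer G v (i + 1)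
  · obtain ⟨i, hi⟩ := hu
    have hi' := mem_layer.mp hi
    obtain ⟨p, hp⟩ := hi'.1.symm.exists_walk_length_eq_dist
    rw [SimpleGraph.dist_comm, hi'.2] at hp
    cases p with
    | nil => simp at hp
    | cons h q =>
      rename_i w
      refine ⟨w, fun i' hi2 => ⟨h, ?_⟩⟩
      have e : i' = i := by have := layer_unique hi hi2; omega
      subst e
      have hr : G.Reachable v w := q.reachable.symm
      have h1 : G.dist v w ≤ i' := by
        have := SimpleGraph.dist_le q
        rw [SimpleGraph.dist_comm] at this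
        simp at hp
        omega
      obtain ⟨j, hj, hj2⟩ := layer_adj (mem_layer.mpr ⟨hr, rfl⟩) h.symm
      have := layer_unique hi hj2
      exact mem_layer.mpr ⟨hr, by omega⟩
  · exact ⟨u, fun i hi => absurd ⟨i, hi⟩ hu⟩

/-- Closing a path inside a layer to a cycle through the tree. -/
theorem close_up {v : V} {i j o : ℕ} {F : Finset V} (hF : F ⊆ layer G v i) {f A B : ℕ → V}
    (hf : PF G F o f) (ho : 1 ≤ o) (hj1 : 1 ≤ j) (hji : j ≤ i)
    (hA0 : A 0 = f (o - 1)) (hB0 : B 0 = f 0) (hAB : A j = B j)
    (hne : ∀ s, s < j → A s ≠ B s)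
    (hAl : ∀ s, s ≤ j → A s ∈ layer G v (i - s)) (hBl : ∀ s, s ≤ j → B s ∈ layer G v (i - s))
    (hAa : ∀ s, s < j → G.Adj (A s) (A (s + 1))) (hBa : ∀ s, s < j → G.Adj (B s) (B (s + 1))) :
    HasCyc G (o + 2 * j - 1) := by
  obtain ⟨hf1, hf2, hf3⟩ := hf
  let g : ℕ → V := fun t =>
    if t < o then f t else if t < o + j then A (t - o + 1) else B (o + 2 * j - 1 - t)
  have g1 : ∀ t, t < o → g t = f t := fun t ht => by simp [g, ht]
  have g2 : ∀ t, o ≤ t → t < o + j → g t = A (t - o + 1) := fun t ht ht2 => by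
    simp [g, ht2, not_lt.mpr ht]
  have g3 : ∀ t, o + j ≤ t → g t = B (o + 2 * j - 1 - t) := fun t ht => by
    have h1 : ¬ t < o := by omega
    have h2 : ¬ t < o + j := by omega
    simp [g, h1, h2]
  have g2' : ∀ t, o - 1 ≤ t → t < o + j → g t = A (t + 1 - o) := fun t ht ht2 => by
    by_cases h : t < o
    · have e : t = o - 1 := by omega
      have e2 : t + 1 - o = 0 := by omega
      rw [g1 t h, e2, hA0, e]
    · rw [g2 t (by omega) ht2]
      congr 1
      omega
  have g3' : ∀ t, o + j - 1 ≤ t → g t = B (o + 2 * j - 1 - t) := fun t ht => by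
    by_cases h : o + j ≤ t
    · exact g3 t h
    · have e2 : o + 2 * j - 1 - t = j := by omega
      have e3 : t - o + 1 = j := by omega
      rw [g2 t (by omega) (by omega), e2, e3, hAB]
  have hinj : ∀ s t, s < t → t < o + 2 * j - 1 → g s ≠ g t := by
    intro s t hst ht he
    by_cases hs1 : s < o
    · rw [g1 s hs1] at he
      have hl := hF (hf1 s hs1)
      by_cases ht1 : t < o
      · rw [g1 t ht1] at he
        have := hf2 s t hs1 ht1 he
        omega
      · by_cases ht2 : t < o + j
        · rw [g2 t (by omega) ht2] at he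
          have h2 := hAl (t - o + 1) (by omega)
          rw [← he] at h2
          have := layer_unique hl h2
          omega
        · rw [g3 t (by omega)] at he
          have h2 := hBl (o + 2 * j - 1 - t) (by omega)
          rw [← he] at h2
          have := layer_unique hl h2
          omega
    · by_cases hs2 : s < o + j
      · rw [g2 s (by omega) hs2] at he
        have hl := hAl (s - o + 1) (by omega)
        by_cases ht2 : t < o + j
        · rw [g2 t (by omega) ht2] at he
          have h2 := hAl (t - o + 1) (by omega)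
          rw [← he] at h2
          have := layer_unique hl h2
          omega
        · rw [g3 t (by omega)] at he
          have h2 := hBl (o + 2 * j - 1 - t) (by omega)
          rw [← he] at h2
          have h3 := layer_unique hl h2
          have e : o + 2 * j - 1 - t = s - o + 1 := by omega
          rw [e] at he
          exact hne _ (by omega) he
      · rw [g3 s (by omega), g3 t (by omega)] at he
        have hl := hBl (o + 2 * j - 1 - s) (by omega)
        have h2 := hBl (o + 2 * j - 1 - t) (by omega)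
        rw [← he] at h2
        have := layer_unique hl h2
        omega
  refine hasCyc_of_PF (F := univ) (f := g) ⟨fun _ _ => mem_univ _, ?_, ?_⟩ ?_
  · intro s t hs ht he
    rcases lt_trichotomy s t with h | h | h
    · exact absurd he (hinj s t h ht)
    · exact h
    · exact absurd he.symm (hinj t s h hs)
  · intro t ht
    by_cases h1 : t + 1 < o
    · rw [g1 t (by omega), g1 _ h1]
      exact hf3 t h1
    · by_cases h2 : t + 1 < o + j
      · rw [g2' t (by omega) (by omega), g2' (t + 1) (by omega) h2]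
        have e : t + 1 + 1 - o = (t + 1 - o) + 1 := by omega
        rw [e]
        exact hAa _ (by omega)
      · rw [g3' t (by omega), g3' (t + 1) (by omega)]
        have e : o + 2 * j - 1 - t = (o + 2 * j - 1 - (t + 1)) + 1 := by omega
        rw [e]
        exact (hBa _ (by omega)).symm
  · rw [g3' _ (by omega), g1 0 (by omega), ← hB0]
    have e : o + 2 * j - 1 - (o + 2 * j - 1 - 1) = 0 + 1 := by omega
    rw [e]
    exact (hBa 0 (by omega)).symm

omit [DecidableEq V] [Fintype V] in
theorem PF.mono {F : Finset V} {n m : ℕ} {f : ℕ → V} (h : PF G F n f) (hm : m ≤ n) :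
    PF G F m f :=
  ⟨fun i hi => h.1 i (by omega), fun i j hi hj => h.2.1 i j (by omega) (by omega),
    fun i hi => h.2.2 i (by omega)⟩

/-- The layer lemma. -/
theorem layer_good (hk : 4 ≤ k) (hc : ¬ HasCyc G (k + 1))
    (hw : ∀ K, Clq G K → 2 * K.card ≤ k) (v : V) {i : ℕ} (h1 : 1 ≤ i) (h2 : 2 * i ≤ k) :
    Good G (k / 2) (layer G v i) := by
  classical
  by_contra hng
  obtain ⟨F, hF, hcr⟩ := exists_crit hng
  have hwF : ∀ K, K ⊆ F → Clq G K → K.card ≤ k / 2 := fun K _ hK => by
    have := hw K hK
    omega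
  choose par hpar using exists_par (G := G) v
  have hl : ∀ x ∈ F, ∀ s, s ≤ i → par^[s] x ∈ layer G v (i - s) := by
    intro x hx s
    induction s with
    | zero => intro _; simpa using hF hx
    | succ s ih =>
      intro hs
      rw [Function.iterate_succ_apply']
      have h3 := ih (by omega)
      have e : i - s = (i - (s + 1)) + 1 := by omega
      rw [e] at h3
      exact (hpar _ _ h3).2
  have hadj : ∀ x ∈ F, ∀ s, s < i → G.Adj (par^[s] x) (par^[s + 1] x) := by
    intro x hx s hs
    rw [Function.iterate_succ_apply']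
    have h3 := hl x hx s (by omega)
    have e : i - s = (i - (s + 1)) + 1 := by omega
    rw [e] at h3
    exact (hpar _ _ h3).1
  have hex : ∃ j, ∀ x ∈ F, ∀ y ∈ F, par^[j] x = par^[j] y := by
    refine ⟨i, fun x hx y hy => ?_⟩
    have hx' := hl x hx i le_rfl
    have hy' := hl y hy i le_rfl
    rw [Nat.sub_self, layer_zero] at hx' hy'
    rw [hx', hy']
  have hji : Nat.find hex ≤ i := by
    apply Nat.find_min'
    intro x hx y hy
    have hx' := hl x hx i le_rfl
    have hy' := hl y hy i le_rfl
    rw [Nat.sub_self, layer_zero] at hx' hy'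
    rw [hx', hy']
  have hspec := Nat.find_spec hex
  have hmin : ∀ s, s < Nat.find hex → ¬ ∀ x ∈ F, ∀ y ∈ F, par^[s] x = par^[s] y :=
    fun s hs => Nat.find_min hex hs
  generalize Nat.find hex = j at hji hspec hmin
  obtain ⟨n, f0, hn, hf0, -, -⟩ := hcr.long_cycle (by omega) hwF
  have hj1 : 1 ≤ j := by
    by_contra h0
    have e : j = 0 := by omega
    subst e
    have := hspec (f0 0) (hf0.1 0 (by omega)) (f0 1) (hf0.1 1 (by omega))
    have := hf0.2.1 0 1 (by omega) (by omega) this
    omega
  have hpath : ∃ f, PF G F (k + 2 - 2 * j) f ∧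
      par^[j - 1] (f (k + 2 - 2 * j - 1)) ≠ par^[j - 1] (f 0) := by
    by_cases hj : j = 1
    · subst hj
      refine ⟨f0, hf0.mono (by omega), fun he => ?_⟩
      have := hf0.2.1 _ _ (by omega) (by omega) he
      omega
    · have h3 := hmin (j - 1) (by omega)
      push Not at h3
      obtain ⟨x, hx, y, hy, hxy⟩ := h3
      obtain ⟨f, hf, hχ⟩ := hcr.ab_path (by omega) hwF
        (fun z => decide (par^[j - 1] z = par^[j - 1] x)) hx hy (l := k + 1 - 2 * j)
        (by simpa using hxy.symm) (by omega) (by omega) (by omega)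
      have e : k + 2 - 2 * j = k + 1 - 2 * j + 1 := by omega
      rw [e]
      refine ⟨f, hf, fun he => hχ ?_⟩
      rw [Nat.add_sub_cancel] at he
      simp only [he]
  obtain ⟨f, hf, hne⟩ := hpath
  have ha : f (k + 2 - 2 * j - 1) ∈ F := hf.1 _ (by omega)
  have hb : f 0 ∈ F := hf.1 _ (by omega)
  have := close_up (A := fun s => par^[s] (f (k + 2 - 2 * j - 1))) (B := fun s => par^[s] (f 0))
    hF hf (by omega) hj1 hji rfl rfl (hspec _ ha _ hb) ?_
    (fun s hs => hl _ ha s (by omega)) (fun s hs => hl _ hb s (by omega))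
    (fun s hs => hadj _ ha s (by omega)) (fun s hs => hadj _ hb s (by omega))
  · have e : k + 2 - 2 * j + 2 * j - 1 = k + 1 := by omega
    rw [e] at this
    exact hc this
  · intro s hs he
    apply hne
    have e : j - 1 = (j - 1 - s) + s := by omega
    rw [e, Function.iterate_add_apply, Function.iterate_add_apply]
    exact congrArg _ he

/-- No path with `2 h` vertices in a neighbourhood. -/
theorem no_path_nb {h : ℕ} (hh : 1 ≤ h) (hc : ¬ HasCyc G (2 * h + 1)) {v : V} {f : ℕ → V}
    (hf : PF G (nb G v) (2 * h) f) : False := by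
  obtain ⟨hf1, hf2, hf3⟩ := hf
  apply hc
  let g : ℕ → V := fun t => if t < 2 * h then f t else v
  have g1 : ∀ t, t < 2 * h → g t = f t := fun t ht => by simp [g, ht]
  have g2 : g (2 * h) = v := by simp [g]
  have hv : ∀ t, t < 2 * h → G.Adj v (f t) := fun t ht => (mem_nb G).mp (hf1 t ht)
  refine hasCyc_of_PF (F := univ) (f := g) ⟨fun _ _ => mem_univ _, ?_, ?_⟩ ?_
  · intro s t hs ht he
    by_cases hs1 : s < 2 * h
    · by_cases ht1 : t < 2 * h
      · rw [g1 s hs1, g1 t ht1] at he
        exact hf2 s t hs1 ht1 he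
      · have e : t = 2 * h := by omega
        rw [g1 s hs1, e, g2] at he
        exact absurd he.symm (hv s hs1).ne
    · by_cases ht1 : t < 2 * h
      · have e : s = 2 * h := by omega
        rw [g1 t ht1, e, g2] at he
        exact absurd he (hv t ht1).ne
      · omega
  · intro t ht
    by_cases h1 : t + 1 < 2 * h
    · rw [g1 t (by omega), g1 _ h1]
      exact hf3 t h1
    · have e : t + 1 = 2 * h := by omega
      rw [g1 t (by omega), e, g2]
      exact (hv t (by omega)).symm
  · rw [Nat.add_sub_cancel, g2, g1 0 (by omega)]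
    exact hv 0 (by omega)

omit [DecidableEq V] [Fintype V] in
/-- A vertex attached to a cycle gives a path with one more vertex. -/
theorem path_of_cycle {F : Finset V} {n p : ℕ} {f : ℕ → V} (hf : PF G F n f)
    (hl : G.Adj (f (n - 1)) (f 0)) {x : V} (hx : x ∈ F) (hxf : ∀ t, t < n → f t ≠ x)
    (hp : p < n) (hadj : G.Adj x (f p)) : ∃ g, PF G F (n + 1) g := by
  obtain ⟨hf1, hf2, hf3⟩ := hf
  let g : ℕ → V := fun t =>
    if t = 0 then x else if p + t - 1 < n then f (p + t - 1) else f (p + t - 1 - n)
  have g0 : g 0 = x := by simp [g]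
  have g1 : ∀ t, 1 ≤ t → p + t - 1 < n → g t = f (p + t - 1) := fun t ht ht2 => by
    have : t ≠ 0 := by omega
    simp only [g, this, ht2, if_true, if_false]
  have g2 : ∀ t, 1 ≤ t → n ≤ p + t - 1 → g t = f (p + t - 1 - n) := fun t ht ht2 => by
    have : t ≠ 0 := by omega
    have h2 : ¬ p + t - 1 < n := by omega
    simp only [g, this, h2, if_false]
  have gi : ∀ t, 1 ≤ t → t < n + 1 → ∃ a, a < n ∧ g t = f a ∧
      (a = p + t - 1 ∨ a + n = p + t - 1) := by
    intro t ht ht2
    by_cases h : p + t - 1 < n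
    · exact ⟨_, h, g1 t ht h, Or.inl rfl⟩
    · exact ⟨_, by omega, g2 t ht (by omega), Or.inr (by omega)⟩
  refine ⟨g, ?_, ?_, ?_⟩
  · intro t ht
    by_cases h0 : t = 0
    · rw [h0, g0]; exact hx
    · obtain ⟨a, ha, e, -⟩ := gi t (by omega) ht
      rw [e]; exact hf1 a ha
  · intro s t hs ht he
    by_cases hs0 : s = 0
    · by_cases ht0 : t = 0
      · omega
      · obtain ⟨a, ha, e, -⟩ := gi t (by omega) ht
        rw [hs0, g0, e] at he
        exact absurd he.symm (hxf a ha)
    · obtain ⟨b, hb, e', hb2⟩ := gi s (by omega) hs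
      by_cases ht0 : t = 0
      · rw [ht0, g0, e'] at he
        exact absurd he (hxf b hb)
      · obtain ⟨a, ha, e, ha2⟩ := gi t (by omega) ht
        rw [e, e'] at he
        have := hf2 _ _ hb ha he
        omega
  · intro t ht
    by_cases h0 : t = 0
    · subst h0
      rw [g0, g1 (0 + 1) (by omega) (by omega)]
      exact hadj
    · by_cases h1 : p + t < n
      · rw [g1 t (by omega) (by omega), g1 (t + 1) (by omega) (by omega)]
        have e : p + (t + 1) - 1 = (p + t - 1) + 1 := by omega
        rw [e]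
        exact hf3 _ (by omega)
      · by_cases h2 : p + t = n
        · rw [g1 t (by omega) (by omega), g2 (t + 1) (by omega) (by omega)]
          have e : p + (t + 1) - 1 - n = 0 := by omega
          rw [e, h2]
          exact hl
        · rw [g2 t (by omega) (by omega), g2 (t + 1) (by omega) (by omega)]
          have e : p + (t + 1) - 1 - n = (p + t - 1 - n) + 1 := by omega
          rw [e]
          exact hf3 _ (by omega)

omit [DecidableEq V] [Fintype V] in
theorem PF.sub {F F' : Finset V} {n : ℕ} {f : ℕ → V} (h : PF G F n f) (hF : F ⊆ F') :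
    PF G F' n f :=
  ⟨fun i hi => hF (h.1 i hi), h.2.1, h.2.2⟩

/-- The strict form for neighbourhoods when `k` is even. -/
theorem nb_good_strict {h : ℕ} (hh : 2 ≤ h) (hc : ¬ HasCyc G (2 * h + 1))
    (hw : ∀ K, Clq G K → K.card ≤ h) (v : V) {L : Finset V} (hL : L ⊆ nb G v)
    (hne : L.Nonempty) : ∃ I, I ⊆ L ∧ Ind G I ∧ L.card < h * I.card := by
  have hw' : ∀ K, K ⊆ nb G v → Clq G K → K.card ≤ h - 1 := by
    intro K hK hcl
    have hv : v ∉ K := fun hv => ((mem_nb G).mp (hK hv)).ne rfl
    have := hw (insert v K) (by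
      intro a ha b hb hab
      rcases mem_insert.mp ha with ha | ha
      · rcases mem_insert.mp hb with hb | hb
        · exact absurd (ha.trans hb.symm) hab
        · rw [ha]; exact (mem_nb G).mp (hK hb)
      · rcases mem_insert.mp hb with hb | hb
        · rw [hb]; exact ((mem_nb G).mp (hK ha)).symm
        · exact hcl a ha b hb hab)
    rw [card_insert_of_notMem hv] at this
    omega
  induction L using Finset.strongInduction with
  | H L ih =>
  by_cases hg : Good G (h - 1) L
  · obtain ⟨I, hI, hi, hcard⟩ := hg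
    refine ⟨I, hI, hi, ?_⟩
    have h1 : 0 < L.card := hne.card_pos
    have h2 : 0 < I.card := by
      by_contra h0
      have : I.card = 0 := by omega
      rw [this] at hcard
      omega
    obtain ⟨h', rfl⟩ : ∃ h', h = h' + 1 := ⟨h - 1, by omega⟩
    rw [Nat.add_sub_cancel] at hcard
    rw [Nat.add_mul]
    omega
  · obtain ⟨F, hF, hcr⟩ := exists_crit hg
    obtain ⟨n, f, hn, hf, hl, -⟩ := hcr.long_cycle (by omega)
      (fun K hK => hw' K (hK.trans (hF.trans hL)))
    have hf' : PF G (nb G v) n f := hf.sub (hF.trans hL)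
    have hn2 : n = 2 * h - 1 := by
      by_contra h0
      exact no_path_nb (by omega) hc (hf'.mono (by omega))
    let C : Finset V := (range n).image f
    have hCL : C ⊆ L := by
      intro x hx
      obtain ⟨t, ht, rfl⟩ := mem_image.mp hx
      exact hF (hf.1 t (mem_range.mp ht))
    have hCc : C.card = n := by
      rw [card_image_of_injOn, card_range]
      intro s hs t ht he
      exact hf.2.1 s t (mem_range.mp hs) (mem_range.mp ht) he
    have hsep : ∀ x ∈ L \ C, ∀ y ∈ C, ¬ G.Adj x y := by
      intro x hx y hy hxy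
      obtain ⟨p, hp, rfl⟩ := mem_image.mp hy
      obtain ⟨hx1, hx2⟩ := mem_sdiff.mp hx
      obtain ⟨g, hg⟩ := path_of_cycle hf' hl (hL hx1)
        (fun t ht he => hx2 (mem_image.mpr ⟨t, mem_range.mpr ht, he⟩)) (mem_range.mp hp) hxy
      exact no_path_nb (by omega) hc (hg.mono (by omega))
    have hnc : ¬ Clq G C := fun hcl => by
      have := hw' C (hCL.trans hL) hcl
      omega
    unfold Clq at hnc
    push Not at hnc
    obtain ⟨a, ha, b, hb, hab, hnadj⟩ := hnc
    have hIH : ∃ I, I ⊆ L \ C ∧ Ind G I ∧ (L \ C).card ≤ h * I.card := by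
      rcases (L \ C).eq_empty_or_nonempty with h0 | h0
      · exact ⟨∅, empty_subset _, fun _ h => absurd h (notMem_empty _), by simp [h0]⟩
      · obtain ⟨I, h1, h2, h3⟩ := ih (L \ C) (sdiff_ssubset hCL ⟨a, ha⟩)
          (sdiff_subset.trans hL) h0
        exact ⟨I, h1, h2, h3.le⟩
    obtain ⟨I, hI, hi, hcard⟩ := hIH
    have haI : a ∉ I := fun h => (mem_sdiff.mp (hI h)).2 ha
    have hbI : b ∉ I := fun h => (mem_sdiff.mp (hI h)).2 hb
    refine ⟨insert a (insert b I), ?_, ?_, ?_⟩
    · intro x hx
      simp only [mem_insert] at hx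
      rcases hx with rfl | rfl | hx
      · exact hCL ha
      · exact hCL hb
      · exact (mem_sdiff.mp (hI hx)).1
    · intro x hx y hy hxy
      simp only [mem_insert] at hx hy
      rcases hx with rfl | rfl | hx
      · rcases hy with rfl | rfl | hy
        · exact hxy.ne rfl
        · exact hnadj hxy
        · exact hsep _ (hI hy) _ ha hxy.symm
      · rcases hy with rfl | rfl | hy
        · exact hnadj hxy.symm
        · exact hxy.ne rfl
        · exact hsep _ (hI hy) _ hb hxy.symm
      · rcases hy with rfl | rfl | hy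
        · exact hsep _ (hI hx) _ ha hxy
        · exact hsep _ (hI hx) _ hb hxy
        · exact hi _ hx _ hy hxy
    · rw [card_insert_of_notMem (by simp [hab, haI]), card_insert_of_notMem hbI]
      have := card_sdiff_add_card_eq_card hCL
      rw [Nat.mul_add, Nat.mul_add]
      omega

/-- Unions of the sets of every second layer. -/
def altU (I : ℕ → Finset V) : ℕ → Finset V
  | 0 => I 0
  | 1 => I 1
  | r + 2 => altU I r ∪ I (r + 2)

omit [Fintype V] in
theorem mem_altU {I : ℕ → Finset V} {u : V} : ∀ r, u ∈ altU I r →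
    ∃ i, i ≤ r ∧ i % 2 = r % 2 ∧ u ∈ I i
  | 0, h => ⟨0, le_rfl, rfl, h⟩
  | 1, h => ⟨1, le_rfl, rfl, h⟩
  | r + 2, h => by
    rcases mem_union.mp h with h | h
    · obtain ⟨i, h1, h2, h3⟩ := mem_altU r h
      exact ⟨i, by omega, by omega, h3⟩
    · exact ⟨r + 2, le_rfl, rfl, h⟩

/-- The case of small clique number. -/
theorem case1 [Nonempty V] (hk : 4 ≤ k) (hc : ¬ HasCyc G (k + 1))
    (ha : ∀ I, Ind G I → I.card ≤ k)
    (hexp : ∀ I, Ind G I → I.Nonempty → k * I.card + 1 ≤ (cnb G univ I).card)
    (hw : ∀ K, Clq G K → 2 * K.card ≤ k) : False := by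
  classical
  obtain ⟨v⟩ := ‹Nonempty V›
  obtain ⟨h, d, hd, hkh⟩ : ∃ h d, d ≤ 1 ∧ k + d = 2 * h + 1 :=
    ⟨k / 2, 1 - k % 2, by omega, by omega⟩
  have hh : k / 2 = h := by omega
  have hv : Ind G {v} := by
    intro a ha b hb hab
    rw [mem_singleton] at ha hb
    exact hab.ne (ha.trans hb.symm)
  have hne1 : (layer G v 1).Nonempty := by
    have h1 := hexp {v} hv (singleton_nonempty v)
    rw [card_singleton] at h1
    obtain ⟨u, hu, huv⟩ := exists_mem_ne (s := cnb G univ {v}) (by omega) v
    rcases ((mem_cnb G).mp hu).2 with h2 | ⟨w, hw, h2⟩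
    · exact absurd (mem_singleton.mp h2) huv
    · rw [mem_singleton.mp hw] at h2
      exact ⟨u, layer_one.mpr h2⟩
  have hI : ∀ i, ∃ I, I ⊆ layer G v i ∧ Ind G I ∧ (i = 0 → I = {v}) ∧
      (1 ≤ i → i ≤ h → (layer G v i).card ≤ h * I.card) ∧
      (i = 1 → (layer G v i).card + d ≤ h * I.card) := by
    intro i
    by_cases h0 : i = 0
    · subst h0
      exact ⟨{v}, fun x hx => layer_zero.mpr (mem_singleton.mp hx), hv, fun _ => rfl,
        by omega, by omega⟩
    · by_cases h1 : i = 1 ∧ d = 1
      · obtain ⟨rfl, rfl⟩ := h1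
        have e : k = 2 * h := by omega
        subst e
        obtain ⟨I, h1, h2, h3⟩ := nb_good_strict (h := h) (by omega) hc
          (fun K hK => by have := hw K hK; omega) v
          (L := layer G v 1) (fun x hx => (mem_nb G).mpr (layer_one.mp hx)) hne1
        exact ⟨I, h1, h2, by omega, fun _ _ => h3.le, fun _ => h3⟩
      · by_cases h2 : i ≤ h
        · obtain ⟨I, h3, h4, h5⟩ := layer_good hk hc hw v (i := i) (by omega) (by omega)
          rw [hh] at h5
          exact ⟨I, h3, h4, by omega, fun _ _ => h5, fun _ => by omega⟩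
        · exact ⟨∅, empty_subset _, fun _ h => absurd h (notMem_empty _), by omega, by omega,
            by omega⟩
  choose I hI1 hI2 hI3 hI4 hI5 using hI
  have hJi : ∀ r, Ind G (altU I r) := by
    intro r a ha b hb hab
    obtain ⟨i, -, hi2, hi3⟩ := mem_altU r ha
    obtain ⟨j, -, hj2, hj3⟩ := mem_altU r hb
    obtain ⟨j', h1, h2⟩ := layer_adj (hI1 i hi3) hab
    obtain ⟨i', h3, h4⟩ := layer_adj (hI1 j hj3) hab.symm
    have e1 := layer_unique h2 (hI1 j hj3)
    have e2 := layer_unique h4 (hI1 i hi3)
    have e : i = j := by omega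
    subst e
    exact hI2 i a hi3 b hj3 hab
  have hJc : ∀ r, (altU I (r + 2)).card = (altU I r).card + (I (r + 2)).card := by
    intro r
    apply card_union_of_disjoint
    rw [disjoint_left]
    intro a ha hb
    obtain ⟨i, hi1, -, hi3⟩ := mem_altU r ha
    have := layer_unique (hI1 i hi3) (hI1 _ hb)
    omega
  let ball : ℕ → Finset V := fun r => univ.filter fun u => ∃ i, i ≤ r ∧ u ∈ layer G v i
  have hb1 : ∀ r, (ball (r + 1)).card ≤ (ball r).card + (layer G v (r + 1)).card := by
    intro r
    refine le_trans (card_le_card ?_) (card_union_le _ _)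
    intro u hu
    obtain ⟨i, h1, h2⟩ := (mem_filter.mp hu).2
    by_cases h3 : i = r + 1
    · exact mem_union_right _ (h3 ▸ h2)
    · exact mem_union_left _ (mem_filter.mpr ⟨mem_univ _, i, by omega, h2⟩)
  have hb0 : (ball 0).card ≤ 1 := by
    rw [← card_singleton v]
    apply card_le_card
    intro u hu
    obtain ⟨i, h1, h2⟩ := (mem_filter.mp hu).2
    have e : i = 0 := by omega
    subst e
    exact mem_singleton.mpr (layer_zero.mp h2)
  have hJ0 : (altU I 0).card = 1 := by
    change (I 0).card = 1
    rw [hI3 0 rfl, card_singleton]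
  have hb2 : ∀ r, r + 1 ≤ h →
      (ball (r + 1)).card + h + d ≤ 1 + h * (altU I r).card + h * (altU I (r + 1)).card := by
    intro r
    induction r with
    | zero =>
      intro _
      have h1 := hb1 0
      have h2 : (layer G v 1).card + d ≤ h * (altU I 1).card := hI5 1 rfl
      rw [hJ0]
      simp only [Nat.zero_add] at h1 ⊢
      omega
    | succ r ih =>
      intro hr
      have h1 := ih (by omega)
      have h2 := hb1 (r + 1)
      have h3 := hI4 (r + 1 + 1) (by omega) hr
      have h4 : (altU I (r + 1 + 1)).card = (altU I r).card + (I (r + 1 + 1)).card := hJc r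
      rw [h4, Nat.mul_add]
      omega
  have hb3 : ∀ r, (cnb G univ (altU I r)).card ≤ (ball (r + 1)).card := by
    intro r
    apply card_le_card
    intro u hu
    refine mem_filter.mpr ⟨mem_univ _, ?_⟩
    rcases ((mem_cnb G).mp hu).2 with h2 | ⟨w, hw, h2⟩
    · obtain ⟨i, h3, -, h4⟩ := mem_altU r h2
      exact ⟨i, by omega, hI1 i h4⟩
    · obtain ⟨i, h3, -, h4⟩ := mem_altU r hw
      obtain ⟨j, h5, h6⟩ := layer_adj (hI1 i h4) h2
      exact ⟨j, by omega, h6⟩
  have hstep : ∀ r, r + 1 ≤ h → 1 ≤ (altU I r).card →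
      k * (altU I r).card + h + d ≤ h * (altU I r).card + h * (altU I (r + 1)).card := by
    intro r hr h1
    have h2 := hexp _ (hJi r) (card_pos.mp h1)
    have h3 := hb2 r hr
    have h4 := hb3 r
    omega
  have hE : ∀ r, r ≤ h → 2 * r + 1 ≤ (altU I r).card := by
    intro r
    induction r with
    | zero => intro _; omega
    | succ r ih =>
      intro hr
      have h1 := ih (by omega)
      have h2 := hstep r hr (by omega)
      by_contra h3
      have h4 : h * (altU I (r + 1)).card ≤ h * ((altU I r).card + 1) :=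
        Nat.mul_le_mul_left _ (by omega)
      rcases (by omega : d = 0 ∨ d = 1) with rfl | rfl
      · have e : k = 2 * h + 1 := by omega
        subst e
        nlinarith
      · have e : k = 2 * h := by omega
        subst e
        nlinarith
  have hfin := ha _ (hJi h)
  rcases (by omega : d = 0 ∨ d = 1) with rfl | rfl
  · have e : k = 2 * h + 1 := by omega
    subst e
    obtain ⟨r, rfl⟩ : ∃ r, h = r + 1 := ⟨h - 1, by omega⟩
    have h1 := hE r (by omega)
    have h2 := hstep r le_rfl (by omega)
    have h4 : (r + 1) * (altU I (r + 1)).card ≤ (r + 1) * ((altU I r).card + 2) :=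
      Nat.mul_le_mul_left _ (by omega)
    nlinarith
  · have := hE h le_rfl
    omega

end Crest.Agent.R54
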