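import Crest.Agent.R54.DataA
import Crest.Agent.R54.DataB
import Crest.Agent.R54.DataC
import Crest.Agent.R54.DataD
import Crest.Agent.R54.DataE
import Crest.Agent.R54.ACase
import Crest.Agent.R54.Layer

set_option autoImplicit false

namespace Crest.Agent.R54

open Finset

variable {V : Type} [DecidableEq V]

/-- The case of a large clique. -/
theorem case2 [Fintype V] {G : SimpleGraph V} {K : Finset V} {k : ℕ} (c : Ctx G K k) : False := by
  by_cases h8 : 8 ≤ K.card
  · exact c.big h8
  have h1 := c.card_le
  have h2 := c.hw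
  have h3 := c.hk
  generalize hw : K.card = w at h1 h2 h8
  have h4 : w ≤ 7 := by omega
  have h5 : 2 ≤ w := by omega
  have h6 : k ≤ 13 := by omega
  interval_cases w <;> interval_cases k <;> first
    | omega
    | exact p_3_2 c hw | exact p_3_3 c hw | exact p_4_3 c hw | exact p_5_3 c hw
    | exact p_4_4 c hw | exact p_5_4 c hw | exact p_6_4 c hw | exact p_7_4 c hw
    | exact p_5_5 c hw | exact p_6_5 c hw | exact p_7_5 c hw | exact p_8_5 c hw | exact p_9_5 c hw
    | exact p_6_6 c hw | exact p_7_6 c hw | exact p_8_6 c hw | exact p_9_6 c hw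
    | exact p_10_6 c hw | exact p_11_6 c hw
    | exact p_7_7 c hw | exact p_8_7 c hw | exact p_9_7 c hw | exact p_10_7 c hw
    | exact p_11_7 c hw | exact p_12_7 c hw | exact p_13_7 c hw

/-- There is no expanding graph with small independence number and without the cycle. -/
theorem no_expander [Fintype V] [Nonempty V] {G : SimpleGraph V} {k : ℕ} (hk : 3 ≤ k)
    (hc : ¬ HasCyc G (k + 1)) (ha : ∀ I, Ind G I → I.card ≤ k)
    (hexp : ∀ I, Ind G I → I.Nonempty → k * I.card + 1 ≤ (cnb G univ I).card) : False := by
  classical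
  have hd : ∀ v, k ≤ (nb G v).card := by
    intro v
    have h1 := hexp {v} (by simp [Ind]) (by simp)
    have h2 : cnb G univ {v} ⊆ insert v (nb G v) := by
      intro u hu
      simpa [mem_cnb, mem_nb] using hu
    have h3 := (card_le_card h2).trans (card_insert_le _ _)
    rw [card_singleton] at h1
    omega
  obtain ⟨K, hK, hmax⟩ := exists_max_image (univ.filter fun K : Finset V => Clq G K) card
    ⟨∅, by simp [Clq]⟩
  have hK' : Clq G K := (mem_filter.1 hK).2
  have hmax' : ∀ K', Clq G K' → K'.card ≤ K.card := fun K' h =>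
    hmax K' (mem_filter.2 ⟨mem_univ _, h⟩)
  by_cases hw : k + 1 ≤ 2 * K.card
  · exact case2 ⟨hk, hc, ha, hd, hK', hmax', hw⟩
  · have h2 : 2 ≤ K.card := by
      obtain ⟨v⟩ := ‹Nonempty V›
      obtain ⟨u, hu⟩ := card_pos.1 (show 0 < (nb G v).card by have := hd v; omega)
      have ad := (mem_nb G).1 hu
      have := hmax' {v, u} (by
        intro a ha b hb hab
        simp only [mem_insert, mem_singleton] at ha hb
        rcases ha with e | e <;> rcases hb with e' | e'
        · exact absurd (e.trans e'.symm) hab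
        · rwa [e, e']
        · rw [e, e']
          exact ad.symm
        · exact absurd (e.trans e'.symm) hab)
      rwa [card_pair ad.ne] at this
    exact case1 (by omega) hc ha hexp fun K' h => by have := hmax' K' h; omega

/-- Graphs with small independence number and without the cycle are good. -/
theorem good_of_no_cycle {G : SimpleGraph V} {k : ℕ} (hk : 3 ≤ k) (hc : ¬ HasCyc G (k + 1))
    (ha : ∀ I, Ind G I → I.card ≤ k) (D : Finset V) : Good G k D := by
  classical
  by_contra hD
  obtain ⟨F, -, hF⟩ := exists_crit hD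
  have hne : F.Nonempty := by
    rw [nonempty_iff_ne_empty]
    rintro rfl
    exact hF.1 ⟨∅, subset_rfl, by simp [Ind], by simp⟩
  have : Nonempty F := hne.to_subtype
  have ind : ∀ I : Finset F, Ind (G.comap Subtype.val) I → Ind G (I.map (.subtype _)) := by
    intro I hI a ha b hb
    obtain ⟨a', ha', rfl⟩ := mem_map.1 ha
    obtain ⟨b', hb', rfl⟩ := mem_map.1 hb
    exact hI a' ha' b' hb'
  refine no_expander (V := F) (G := G.comap Subtype.val) hk ?_ ?_ ?_
  · rintro ⟨l, h1, h2, h3, h4⟩
    refine hc ⟨l.map Subtype.val, by simpa using h1, h2.map Subtype.val_injective,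
      (List.isChain_map _).2 h3, ?_⟩
    intro a ha b hb
    rw [List.head?_map] at ha
    rw [List.getLast?_map] at hb
    obtain ⟨a', ha', rfl⟩ := Option.mem_map.1 ha
    obtain ⟨b', hb', rfl⟩ := Option.mem_map.1 hb
    exact h4 a' ha' b' hb'
  · intro I hI
    simpa using ha _ (ind I hI)
  · intro I hI hne
    have h1 := hF.exp (I := I.map (.subtype _)) (fun a ha => by
      obtain ⟨a, -, rfl⟩ := mem_map.1 ha
      exact a.2) (ind I hI) (by simpa using hne)
    rw [card_map] at h1
    refine h1.trans ?_
    rw [← card_map (f := .subtype _) (s := cnb (G.comap Subtype.val) univ I)]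
    refine card_le_card fun v hv => ?_
    obtain ⟨hv, h⟩ := (mem_cnb G).1 hv
    refine mem_map.2 ⟨⟨v, hv⟩, (mem_cnb _).2 ⟨mem_univ _, ?_⟩, rfl⟩
    rcases h with h | ⟨u, hu, h⟩
    · obtain ⟨a, ha, rfl⟩ := mem_map.1 h
      exact Or.inl ha
    · obtain ⟨a, ha, rfl⟩ := mem_map.1 hu
      exact Or.inr ⟨a, ha, h⟩

omit [DecidableEq V] in
theorem exists_walk {G : SimpleGraph V} : ∀ (l : List V) (a b : V), (a :: (l ++ [b])).IsChain G.Adj →
    ∃ p : G.Walk a b, p.support = a :: (l ++ [b])
  | [], a, b, h => ⟨.cons (by simpa using h) .nil, by simp⟩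
  | x :: l, a, b, h => by
    rw [List.cons_append, List.isChain_cons_cons] at h
    obtain ⟨p, hp⟩ := exists_walk l x b h.2
    exact ⟨.cons h.1 p, by simp [hp]⟩

omit [DecidableEq V] in
theorem HasCyc.walk {G : SimpleGraph V} {n : ℕ} (h : HasCyc G n) (hn : 3 ≤ n) :
    ∃ v : V, ∃ p : G.Walk v v, p.IsCycle ∧ p.length = n := by
  obtain ⟨l, h1, h2, h3, h4⟩ := h
  cases l with
  | nil => simp at h1; omega
  | cons a t =>
    have hch : (a :: (t ++ [a])).IsChain G.Adj := by
      rw [← List.cons_append, List.isChain_append]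
      exact ⟨h3, by simp, fun x hx y hy => h4 y (by simpa using hy) x hx⟩
    obtain ⟨p, hp⟩ := exists_walk t a a hch
    have hl : p.length = n := by
      have := p.length_support
      rw [hp] at this
      simp only [List.length_cons, List.length_append, List.length_nil] at this h1
      omega
    refine ⟨a, p, ?_, hl⟩
    rw [SimpleGraph.Walk.isCycle_iff_isPath_tail_and_le_length]
    refine ⟨?_, by omega⟩
    rw [SimpleGraph.Walk.isPath_def, SimpleGraph.Walk.support_tail_of_not_nil, hp]
    · simp only [List.tail_cons]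
      rw [List.nodup_append_comm]
      simpa using h2
    · rw [SimpleGraph.Walk.not_nil_iff_lt_length]
      omega

end Crest.Agent.R54
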