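import Crest.Agent.R54.LP

set_option autoImplicit false

namespace Crest.Agent.R54

open Finset

variable {V : Type} [DecidableEq V] {G : SimpleGraph V} {K : Finset V} {k : ℕ}

theorem seg_cK_append (P Q : List V) : cK K (P ++ Q) = cK K P + cK K Q := List.countP_append

theorem seg_cN_append (P Q : List V) : cN K (P ++ Q) = cN K P + cN K Q := List.countP_append

theorem seg_cK_out {E : List V} (h : ∀ v ∈ E, v ∉ K) : cK K E = 0 :=
  List.countP_eq_zero.2 fun v hv => by simpa using h v hv

theorem seg_cN_out {E : List V} (h : ∀ v ∈ E, v ∉ K) : cN K E = E.length :=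
  List.countP_eq_length.2 fun v hv => by simpa using h v hv

theorem seg_cK_cons {x : V} (hx : x ∈ K) (P : List V) : cK K (x :: P) = cK K P + 1 := by
  simp [cK, hx]

theorem seg_cN_cons {x : V} (hx : x ∈ K) (P : List V) : cN K (x :: P) = cN K P := by
  simp [cN, hx]

omit [DecidableEq V] in
theorem seg_LK_append {α β : List V} (hβ : β ≠ []) : LK K (α ++ β) ↔ LK K β := by
  simp only [LK, List.getLast?_append_of_ne_nil _ hβ]

omit [DecidableEq V] in
theorem seg_lp_nil : LP G K [] := ⟨List.nodup_nil, List.IsChain.nil, by simp [HK], by simp [LK]⟩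

omit [DecidableEq V] in
theorem seg_lp_single {x : V} (hx : x ∈ K) : LP G K [x] :=
  ⟨List.nodup_singleton x, List.IsChain.singleton x, by simpa [HK], by simpa [LK]⟩

/-- A segment: a path with both ends in `K` and no two consecutive vertices in `K`. -/
def Seg (G : SimpleGraph V) (K : Finset V) (s : ℕ) (t : List V) : Prop :=
  LP G K t ∧ ∃ e, cK K t = e + 1 ∧ s * e ≤ cN K t ∧ (e = 0 → ∃ u, t = [u]) ∧
    (e = 1 → ∃ x E y, t = x :: (E ++ [y]) ∧ ∀ v ∈ E, v ∉ K)

omit [DecidableEq V] in
theorem seg_split {t : List V} (hne : t ≠ []) (h : LK K t) :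
    ∃ E y t', t = E ++ y :: t' ∧ (∀ v ∈ E, v ∉ K) ∧ y ∈ K := by
  induction t with
  | nil => exact absurd rfl hne
  | cons a t ih =>
    by_cases ha : a ∈ K
    · exact ⟨[], a, t, rfl, by simp, ha⟩
    · have ht : t ≠ [] := by
        rintro rfl
        exact ha (h a (by simp))
      obtain ⟨E, y, t', rfl, h1, h2⟩ := ih ht ((seg_LK_append (α := [a]) ht).1 h)
      refine ⟨a :: E, y, t', rfl, fun v hv => ?_, h2⟩
      rcases List.mem_cons.1 hv with rfl | hv
      exacts [ha, h1 v hv]

theorem seg_decomp {s : ℕ} (n : ℕ) : ∀ P : List V, P.length ≤ n → LP G K P → P ≠ [] →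
    Ears K s P → ∃ (g : List ℕ) (t : List V) (Ms : List (List V)), P = t ++ Ms.flatten ∧
      Seg G K s t ∧ (∀ u ∈ Ms, Seg G K s u) ∧ P.map (fun v => decide (v ∈ K)) = pat g ∧
      g.length + 1 = cK K P ∧ g.sum = cN K P ∧ (∀ a ∈ g, a = 0 ∨ s ≤ a) ∧
      ∀ p, fr p g = Ms.countP (fun u => decide (u.length = 1)) +
        if t.length = 1 ∧ p = 0 then 1 else 0 := by
  induction n with
  | zero =>
    intro P hl _ hne
    exact absurd (List.length_eq_zero_iff.1 (by omega)) hne
  | succ n ih =>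
    intro P hl h hne hE
    obtain ⟨x, t0, rfl⟩ := List.exists_cons_of_ne_nil hne
    have hx : x ∈ K := h.hd x (by simp)
    have hsx : Seg G K s [x] := ⟨seg_lp_single hx, 0, by simp [cK, hx], by simp,
      fun _ => ⟨x, rfl⟩, by simp⟩
    by_cases ht0 : t0 = []
    · subst ht0
      exact ⟨[], [x], [], by simp, hsx, by simp, by simp [pat, hx], by simp [cK, hx],
        by simp [cN, hx], by simp, fun p => by simp [fr]⟩
    obtain ⟨E, y, t', rfl, hEK, hy⟩ := seg_split ht0 ((seg_LK_append (α := [x]) ht0).1 h.la)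
    have hQ : LP G K (y :: t') := by
      have hs : y :: t' <:+ x :: (E ++ y :: t') := ⟨x :: E, rfl⟩
      refine ⟨h.nd.sublist hs.sublist, h.ch.suffix hs, by simpa [HK], ?_⟩
      exact (seg_LK_append (α := x :: E) (by simp)).1 h.la
    have hEQ : Ears K s (y :: t') := by
      intro α E' γ he hα hγ h1 h2 h3 h4
      refine hE (x :: E ++ α) E' γ (by rw [he]; simp) (by simp) hγ ?_ h2 h3 h4
      exact (seg_LK_append hα).2 h1
    obtain ⟨g, t, Ms, e1, st, sM, e2, e3, e4, e5, e6⟩ := ih (y :: t')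
      (by simp only [List.length_cons, List.length_append] at hl ⊢; omega) hQ (by simp) hEQ
    have f2 : (x :: (E ++ y :: t')).map (fun v => decide (v ∈ K)) = pat (E.length :: g) := by
      rw [List.map_cons, List.map_append, e2, pat, decide_eq_true hx]
      congr 2
      exact List.eq_replicate_iff.2 ⟨by simp, by simpa using hEK⟩
    have f3 : (E.length :: g).length + 1 = cK K (x :: (E ++ y :: t')) := by
      rw [seg_cK_cons hx, seg_cK_append, seg_cK_out hEK, ← e3]; simp
    have f4 : (E.length :: g).sum = cN K (x :: (E ++ y :: t')) := by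
      rw [seg_cN_cons hx, seg_cN_append, seg_cN_out hEK, ← e4]; simp
    by_cases hE0 : E = []
    · subst hE0
      refine ⟨0 :: g, [x], t :: Ms, by simp [e1], hsx, by simpa using ⟨st, sM⟩, f2, f3, f4,
        by simpa using e5, fun p => ?_⟩
      rw [fr, e6, List.countP_cons]
      simp only [and_true, List.length_singleton, true_and, decide_eq_true_eq]
      omega
    · have hs : s ≤ E.length := hE [x] E (y :: t') rfl (by simp) (by simp) (by simpa [LK])
        (by simpa [HK]) hE0 hEK
      have hl0 : E.length ≠ 0 := by simpa using hE0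
      obtain ⟨lt, e, g1, g2, g3, g4⟩ := st
      have ht : t ≠ [] := by
        rintro rfl
        simp [cK] at g1
      have hpre : x :: (E ++ t) <+: x :: (E ++ y :: t') := ⟨Ms.flatten, by simp [e1]⟩
      refine ⟨E.length :: g, x :: (E ++ t), Ms, by simp [e1], ⟨⟨h.nd.sublist hpre.sublist,
        h.ch.prefix hpre, by simpa [HK], (seg_LK_append (α := x :: E) ht).2 lt.la⟩, e + 1, ?_, ?_,
        by simp, fun he => ?_⟩, sM, f2, f3, f4, by simpa [hE0, hs] using e5, fun p => ?_⟩
      · rw [seg_cK_cons hx, seg_cK_append, seg_cK_out hEK, g1, zero_add]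
      · rw [seg_cN_cons hx, seg_cN_append, seg_cN_out hEK, mul_add]
        omega
      · obtain ⟨u, rfl⟩ := g3 (by omega)
        exact ⟨x, E, u, rfl, hEK⟩
      · rw [fr, e6]
        simp [hE0]

theorem seg_lp_flatten (hK : Clq G K) {L : List (List V)} (h : ∀ t ∈ L, LP G K t)
    (hn : L.flatten.Nodup) : LP G K L.flatten := by
  induction L with
  | nil => exact seg_lp_nil
  | cons t L ih =>
    rw [List.flatten_cons] at hn ⊢
    rw [List.nodup_append] at hn
    exact (h t (by simp)).append hK (ih (fun u hu => h u (by simp [hu])) hn.2.1)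
      fun v hv hv' => hn.2.2 v hv v hv' rfl

theorem seg_drop {L : List (List V)} (h : ∀ t ∈ L, LP G K t) :
    cN K (L.filter fun u => !decide (u.length = 1)).flatten = cN K L.flatten ∧
      (L.filter fun u => !decide (u.length = 1)).flatten.length +
        L.countP (fun u => decide (u.length = 1)) = L.flatten.length := by
  induction L with
  | nil => simp
  | cons t L ih =>
    obtain ⟨h1, h2⟩ := ih fun u hu => h u (by simp [hu])
    by_cases ht : t.length = 1
    · obtain ⟨x, rfl⟩ := List.length_eq_one_iff.1 ht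
      have hx : x ∈ K := (h [x] (by simp)).hd x (by simp)
      rw [List.filter_cons_of_neg (by simp), List.countP_cons_of_pos (by simp), List.flatten_cons,
        List.singleton_append, seg_cN_cons hx, List.length_cons]
      exact ⟨h1, by omega⟩
    · rw [List.filter_cons_of_pos (by simpa using ht), List.countP_cons_of_neg (by simpa using ht),
        List.flatten_cons, List.flatten_cons, seg_cN_append, seg_cN_append, List.length_append,
        List.length_append]
      exact ⟨by omega, by omega⟩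

/-- The decomposition into segments. -/
theorem seg_exists (hK : Clq G K) {P : List V} (h : LP G K P) (hne : P ≠ []) {s : ℕ}
    (hE : Ears K s P) : ∃ (g : List ℕ) (L : List (List V)), P = L.flatten ∧
      (∀ u ∈ L, Seg G K s u) ∧ P.map (fun v => decide (v ∈ K)) = pat g ∧
      g.length + 1 = cK K P ∧ g.sum = cN K P ∧ (∀ a ∈ g, a = 0 ∨ s ≤ a) ∧
      fr 0 g = L.countP (fun u => decide (u.length = 1)) ∧
      ∃ P', LP G K P' ∧ cN K P' = cN K P ∧ P'.length + fr 0 g = P.length := by
  obtain ⟨g, t, Ms, e1, st, sM, e2, e3, e4, e5, e6⟩ := seg_decomp P.length P le_rfl h hne hE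
  have hL : ∀ u ∈ t :: Ms, Seg G K s u := by simpa using ⟨st, sM⟩
  have hP : P = (t :: Ms).flatten := e1
  have hfr : fr 0 g = (t :: Ms).countP (fun u => decide (u.length = 1)) := by
    rw [e6, List.countP_cons]; simp
  obtain ⟨d1, d2⟩ := seg_drop (G := G) (K := K) fun u hu => (hL u hu).1
  refine ⟨g, t :: Ms, hP, hL, e2, e3, e4, e5, hfr, _, seg_lp_flatten hK
    (fun u hu => (hL u (List.mem_of_mem_filter hu)).1) ?_, by rw [d1, ← hP],
    by rw [hfr, d2, ← hP]⟩
  exact (hP ▸ h.nd).sublist List.filter_sublist.flatten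

theorem seg_count {L : List (List V)} (h : ∀ t ∈ L, Seg G K 2 t ∧ t.length ≠ 1) :
    4 * cK K L.flatten ≤ 3 * cN K L.flatten +
      2 * (L.filter fun u => decide (cK K u = 2 ∧ cN K u = 2)).length := by
  induction L with
  | nil => simp [cK]
  | cons t L ih =>
    have h1 := ih fun u hu => h u (by simp [hu])
    obtain ⟨⟨-, e, g1, g2, g3, -⟩, h2⟩ := h t (by simp)
    have he : e ≠ 0 := fun he => by
      obtain ⟨u, rfl⟩ := g3 he
      exact h2 rfl
    rw [List.flatten_cons, seg_cK_append, seg_cN_append]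
    by_cases ht : cK K t = 2 ∧ cN K t = 2
    · rw [List.filter_cons_of_pos (by simpa using ht), List.length_cons]
      omega
    · rw [List.filter_cons_of_neg (by simpa using ht)]
      omega

theorem seg_good {t : List V} (h : Seg G K 2 t) (h1 : cK K t = 2) (h2 : cN K t = 2) :
    ∃ x w w' y, t = [x, w, w', y] ∧ w ∉ K ∧ w' ∉ K := by
  obtain ⟨lt, e, g1, -, -, g4⟩ := h
  obtain ⟨x, E, y, rfl, hE⟩ := g4 (by omega)
  have hl := cK_add_cN K (x :: (E ++ [y]))
  rw [h1, h2] at hl
  simp only [List.length_cons, List.length_append, List.length_nil] at hl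
  obtain ⟨w, w', rfl⟩ := List.length_eq_two.1 (show E.length = 2 by omega)
  exact ⟨x, w, w', y, rfl, hE w (by simp), hE w' (by simp)⟩

theorem seg_gaps_count {s : ℕ} {g : List ℕ} (h : ∀ a ∈ g, a = 0 ∨ s ≤ a) :
    ∃ e, s * e ≤ g.sum ∧ ∀ p, g.length + 1 ≤ fr p g + 2 * e + if p = 0 then 0 else 1 := by
  induction g with
  | nil => exact ⟨0, by simp, fun p => by by_cases hp : p = 0 <;> simp [fr, hp]⟩
  | cons a g ih =>
    obtain ⟨e, h1, h2⟩ := ih fun b hb => h b (by simp [hb])
    have h3 := h2 a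
    by_cases ha : a = 0
    · refine ⟨e, by simpa [ha] using h1, fun p => ?_⟩
      subst ha
      by_cases hp : p = 0 <;> simp [fr, hp] at h3 ⊢ <;> omega
    · have hs : s ≤ a := (h a (by simp)).resolve_left ha
      refine ⟨e + 1, by rw [List.sum_cons, mul_add]; omega, fun p => ?_⟩
      by_cases hp : p = 0 <;> simp [fr, hp, ha] at h3 ⊢ <;> omega

/-- The gap list of a path; the free vertices can be dropped. -/
theorem LP.gaps (hK : Clq G K) {P : List V} (h : LP G K P) (hne : P ≠ []) {s : ℕ}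
    (hE : Ears K s P) :
    ∃ g : List ℕ, P.map (fun v => decide (v ∈ K)) = pat g ∧ g.length + 1 = cK K P ∧
      g.sum = cN K P ∧ (∀ a ∈ g, a = 0 ∨ s ≤ a) ∧
      ∃ P', LP G K P' ∧ cN K P' = cN K P ∧ P'.length + fr 0 g = P.length := by
  obtain ⟨g, -, -, -, e2, e3, e4, e5, -, e6⟩ := seg_exists hK h hne hE
  exact ⟨g, e2, e3, e4, e5, e6⟩

theorem gaps_count {s : ℕ} {g : List ℕ} (h : ∀ a ∈ g, a = 0 ∨ s ≤ a) :
    ∃ e, g.length + 1 ≤ fr 0 g + 2 * e ∧ s * e ≤ g.sum := by
  obtain ⟨e, h1, h2⟩ := seg_gaps_count h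
  exact ⟨e, by simpa using h2 0, h1⟩

/-- Two segments with two vertices in `K` and an ear of size two. -/
theorem LP.two_good (hK : Clq G K) {P : List V} (h : LP G K P) (hE : Ears K 2 P)
    (hfree : ∀ P', LP G K P' → cN K P' = cN K P → P.length ≤ P'.length)
    (h1 : cN K P ≤ cK K P + 1) (h2 : 7 ≤ cK K P) :
    ∃ Z x w w' y x' v v' y', P.Perm (Z ++ [x', v, v', y'] ++ [x, w, w', y]) ∧ LP G K Z ∧
      LP G K [x', v, v', y'] ∧ LP G K [x, w, w', y] ∧ w ∉ K ∧ w' ∉ K ∧ v ∉ K ∧ v' ∉ K := by
  have hne : P ≠ [] := by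
    rintro rfl
    simp [cK] at h2
  obtain ⟨g, L, hP, hL, -, -, -, -, e5, P', l1, l2, l3⟩ := seg_exists hK h hne hE
  have h0 : L.countP (fun u => decide (u.length = 1)) = 0 := by
    have := hfree P' l1 l2
    omega
  have h3 := seg_count (G := G) (K := K) (L := L) fun t ht =>
    ⟨hL t ht, by simpa using List.countP_eq_zero.1 h0 t ht⟩
  rw [← hP] at h3
  have hperm := List.filter_append_perm (fun u => decide (cK K u = 2 ∧ cN K u = 2)) L
  have hmem : ∀ u ∈ L.filter fun u => decide (cK K u = 2 ∧ cN K u = 2),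
      u ∈ L ∧ cK K u = 2 ∧ cN K u = 2 := fun u hu => by simpa using hu
  generalize (L.filter fun u => decide (cK K u = 2 ∧ cN K u = 2)) = A at h3 hperm hmem
  generalize (L.filter fun u => !decide (cK K u = 2 ∧ cN K u = 2)) = B at hperm
  obtain ⟨a, b, A, rfl⟩ : ∃ a b A', A = a :: b :: A' := by
    rcases A with _ | ⟨a, _ | ⟨b, A⟩⟩
    · simp only [List.length_nil] at h3; omega
    · simp only [List.length_singleton] at h3; omega
    · exact ⟨a, b, A, rfl⟩
  obtain ⟨ha, ha1, ha2⟩ := hmem a (by simp)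
  obtain ⟨hb, hb1, hb2⟩ := hmem b (by simp)
  obtain ⟨x, w, w', y, ea, hw, hw'⟩ := seg_good (hL a ha) ha1 ha2
  obtain ⟨x', v, v', y', eb, hv, hv'⟩ := seg_good (hL b hb) hb1 hb2
  have hp : P.Perm ((A ++ B).flatten ++ b ++ a) := by
    rw [hP]
    refine hperm.symm.flatten.trans ?_
    simp only [List.cons_append, List.flatten_cons]
    exact List.perm_append_comm.trans (List.perm_append_comm.append_right a)
  refine ⟨(A ++ B).flatten, x, w, w', y, x', v, v', y', ea ▸ eb ▸ hp, seg_lp_flatten hK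
    (fun t ht => (hL t (hperm.subset (by simp only [List.cons_append, List.mem_cons, ht, or_true]))).1)
    ?_, eb ▸ (hL b hb).1, ea ▸ (hL a ha).1, hw, hw', hv, hv'⟩
  exact (hp.nodup_iff.1 h.nd).of_append_left.of_append_left

variable [Fintype V]

/-- The shape of a minimal overlong path. -/
theorem Ctx.shape (h : Ctx G K k) {P : List V} (hP : LP G K P) {s : ℕ}
    (hs : cN K P + K.card = k + 1 + s) (hE : Ears K (s + 1) P) :
    ∃ g : List ℕ, P.map (fun v => decide (v ∈ K)) = pat g ∧ g.length + 1 = cK K P ∧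
      g.sum = cN K P ∧ (∀ a ∈ g, a = 0 ∨ s + 1 ≤ a) ∧ fr 0 g + K.card + 1 ≤ s + cK K P := by
  have hk := h.card_le
  have hne : P ≠ [] := by
    rintro rfl
    simp only [cN, List.countP_nil] at hs
    omega
  obtain ⟨g, e2, e3, e4, e5, P', l1, l2, l3⟩ := hP.gaps h.hK hne hE
  refine ⟨g, e2, e3, e4, e5, ?_⟩
  by_contra hc
  have h1 := cK_add_cN K P
  have h2 := h.hk
  exact h.hc (l1.add h.hK (by omega) (by omega) (by omega))

/-- For large cliques an overlong path uses all of `K`. -/
theorem Ctx.no_miss (h : Ctx G K k) (h8 : 8 ≤ K.card) {P : List V} (hP : LP G K P) {x : V}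
    (hx : x ∈ K) (hxP : x ∉ P) (h1 : k + 1 ≤ cN K P + K.card) (h2 : cN K P + K.card ≤ k + 4) :
    False := by
  obtain ⟨s', P', a1, a2, a3, a4, a5, a6⟩ :=
    h.reduce hP (s := cN K P + K.card - (k + 1)) (by omega)
  obtain ⟨g, -, e3, e4, e5, e6⟩ := h.shape a3 a5 a6
  obtain ⟨e, b1, b2⟩ := gaps_count e5
  have c1 := cK_lt a3.nd hx fun hx' => hxP ((a4 x hx).2 hx')
  have c2 := h.hw
  have c3 : s' ≤ 3 := by omega
  interval_cases s' <;> omega

end Crest.Agent.R54
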