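import Crest.Agent.R54.Chk
import Crest.Agent.R54.Seg
import Crest.Agent.R54.StepA

set_option autoImplicit false

namespace Crest.Agent.R54

open Finset

/-- The positions of the vertices of the clique. -/
def kIdx (b : List Bool) : List ℕ := (List.range b.length).filter fun i => b.getD i false

/-- The edges that are known from the pattern. -/
def prs (b : List Bool) : List (ℕ × ℕ) :=
  (List.range (b.length - 1)).map (fun i => (i, i + 1)) ++
    (kIdx b).flatMap fun i => ((kIdx b).filter (· < i)).map fun j => (i, j)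

/-- The initial state. -/
def init (b : List Bool) : St :=
  ⟨b.length, (prs b).foldl (fun M p => ins M p.1 p.2) 0, 0, 0, 0, [], []⟩

/-- The certificate refutes the pattern. -/
def closes (k w : ℕ) (lam g cert : List ℕ) : Bool :=
  decide ((pat g).length ≤ 32) && run k w (kIdx (pat g)) lam cert [init (pat g)]

/-- Lists of given length and sum whose entries vanish or are at least `s`. -/
def comps (s : ℕ) : ℕ → ℕ → List (List ℕ)
  | 0, T => if T = 0 then [[]] else []
  | n + 1, T => ((List.range (T + 1)).filter fun a => a == 0 || decide (s ≤ a)).flatMap fun a =>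
      (comps s n (T - a)).map (a :: ·)

/-- The patterns of minimal overlong paths. -/
def patsY (k w s : ℕ) : List (List ℕ) :=
  (comps (s + 1) (w - 1) (k + 1 + s - w)).filter fun g => decide (fr 0 g + 1 ≤ s)

/-- The patterns of longest short paths. -/
def patsX (w n : ℕ) : List (List ℕ) := comps 0 (w - 1) (n - w)

theorem mem_comps {s : ℕ} : ∀ {g : List ℕ}, (∀ a ∈ g, a = 0 ∨ s ≤ a) → g ∈ comps s g.length g.sum
  | [], _ => by simp [comps]
  | a :: g, h => by
    have := mem_comps (g := g) fun b hb => h b (List.mem_cons_of_mem _ hb)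
    simp only [List.length_cons, List.sum_cons, comps, List.mem_flatMap, List.mem_filter,
      List.mem_range, List.mem_map]
    refine ⟨a, ⟨by omega, by simpa using h a (by simp)⟩, g, ?_, rfl⟩
    rwa [Nat.add_sub_cancel_left]

theorem rel_foldl {n : ℕ} (hn : n ≤ 32) {R : ℕ → ℕ → Prop} : ∀ (l : List (ℕ × ℕ)) (M : ℕ),
    Rel M n R → (∀ p ∈ l, p.1 < n ∧ p.2 < n ∧ R p.1 p.2 ∧ R p.2 p.1) →
      Rel (l.foldl (fun M p => ins M p.1 p.2) M) n R
  | [], _, h, _ => h
  | p :: l, M, h, hl => by
    obtain ⟨h1, h2, h3, h4⟩ := hl p (by simp)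
    exact rel_foldl hn l _ (h.ins hn h1 h2 h3 h4) fun q hq => hl q (List.mem_cons_of_mem _ hq)

theorem rel_zero (n : ℕ) (R : ℕ → ℕ → Prop) : Rel 0 n R := by
  intro i j _ _ h
  simp [mem] at h

variable {V : Type} [DecidableEq V] {G : SimpleGraph V} {K : Finset V} {k : ℕ}

theorem mod_init (hK : Clq G K) {P : List V} (hP : KP G K P) (h32 : P.length ≤ 32) (x : V) :
    Mod G K (kIdx (P.map fun v => decide (v ∈ K))) (fun i => P.getD i x)
      (init (P.map fun v => decide (v ∈ K))) := by
  have e : ∀ i (hi : i < P.length), P.getD i x = P[i] := fun i hi => by simp [hi]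
  have inj : ∀ i j, i < P.length → j < P.length → P.getD i x = P.getD j x → i = j := by
    intro i j hi hj h
    rw [e i hi, e j hj] at h
    exact (hP.1.nd.getElem_inj_iff).1 h
  have hk : ∀ i, i ∈ kIdx (P.map fun v => decide (v ∈ K)) ↔ i < P.length ∧ P.getD i x ∈ K := by
    intro i
    simp only [kIdx, List.length_map, List.mem_filter, List.mem_range, and_congr_right_iff]
    intro hi
    simp [hi]
  have hn : (init (P.map fun v => decide (v ∈ K))).n = P.length := by simp [init]
  refine ⟨by rwa [hn], by rwa [hn], fun i hi => by rw [hn]; exact (hk i).1 hi, ?_, ?_,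
    rel_zero _ _, rel_zero _ _, rel_zero _ _, by simp [init], by simp [init]⟩
  · intro y hy
    obtain ⟨i, hi, rfl⟩ := List.getElem_of_mem (hP.2 y hy)
    exact ⟨i, (hk i).2 ⟨hi, by rwa [e i hi]⟩, e i hi⟩
  · rw [hn]
    refine rel_foldl h32 _ _ (rel_zero _ _) fun p hp => ?_
    simp only [prs, List.length_map, List.mem_append, List.mem_map, List.mem_range,
      List.mem_flatMap, List.mem_filter, decide_eq_true_eq] at hp
    rcases hp with ⟨i, hi, rfl⟩ | ⟨i, hi, j, ⟨hj, hij⟩, rfl⟩
    · have := List.isChain_iff_getElem.1 hP.1.ch i (by omega)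
      simp only
      rw [e i (by omega), e (i + 1) (by omega)]
      exact ⟨by omega, by omega, this, this.symm⟩
    · obtain ⟨h1, h2⟩ := (hk i).1 hi
      obtain ⟨h3, h4⟩ := (hk j).1 hj
      have := hK _ h2 _ h4 fun h => by have := inj i j h1 h3 h; omega
      exact ⟨h1, h3, this, this.symm⟩

variable [Fintype V]

theorem Ctx.closes (c : Ctx G K k) {lam g cert : List ℕ}
    (hlam : ∀ P, KP G K P → P.length ∈ lam → False) {P : List V} (hP : KP G K P) (hne : P ≠ [])
    (hg : P.map (fun v => decide (v ∈ K)) = pat g) (h : closes k K.card lam g cert = true) :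
    False := by
  simp only [R54.closes, Bool.and_eq_true, decide_eq_true_eq, ← hg, List.length_map] at h
  exact run_sound c hlam _ _ h.2 _ (by simp) _ (mod_init c.hK hP h.1 (P.head hne))

/-- All patterns of minimal overlong paths are refuted. -/
def OkY (k w s : ℕ) : Prop :=
  ∀ g ∈ patsY k w s, ∃ cert, closes k w (List.range' (k + 1) s) g cert = true

/-- All patterns of longest short paths are refuted. -/
def OkX (k w s n : ℕ) : Prop :=
  ∀ g ∈ patsX w n, ∃ cert, closes k w (List.range' (n + 1) (k + 1 + s - n)) g cert = true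

/-- A certificate for each pattern. -/
def allCl (k w : ℕ) (lam : List ℕ) : List (List ℕ) → List (List ℕ) → Bool
  | [], _ => true
  | _ :: _, [] => false
  | g :: gs, c :: cs => closes k w lam g c && allCl k w lam gs cs

theorem allCl_spec {k w : ℕ} {lam : List ℕ} : ∀ {gs cs : List (List ℕ)},
    allCl k w lam gs cs = true → ∀ g ∈ gs, ∃ cert, closes k w lam g cert = true
  | [], _, _ => by simp
  | _ :: _, [], h => by simp [allCl] at h
  | g :: gs, c :: cs, h => by
    simp only [allCl, Bool.and_eq_true] at h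
    intro g' hg'
    rcases List.mem_cons.1 hg' with rfl | hg'
    · exact ⟨c, h.1⟩
    · exact allCl_spec h.2 g' hg'

theorem Ctx.not_long (c : Ctx G K k) {s0 : ℕ} (hY : ∀ s, 1 ≤ s → s ≤ s0 → OkY k K.card s) :
    ∀ s, s ≤ s0 → ∀ P, KP G K P → P.length ≠ k + 1 + s := by
  intro s
  induction s using Nat.strong_induction_on with
  | _ s ih =>
    intro hs P hP hl
    have h1 := cK_add_cN K P
    have h2 := cK_eq hP.1.nd hP.2
    obtain ⟨s', P', a1, a2, a3, a4, a5, a6⟩ := c.reduce hP.1 (s := s) (by omega)
    have hP' : KP G K P' := ⟨a3, fun x hx => (a4 x hx).1 (hP.2 x hx)⟩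
    have h3 := cK_add_cN K P'
    have h4 := cK_eq a3.nd hP'.2
    rcases a2.lt_or_eq with a2 | rfl
    · exact ih s' a2 (by omega) P' hP' (by omega)
    · obtain ⟨g, g1, g2, g3, g4, g5⟩ := c.shape a3 a5 a6
      have hg : g ∈ patsY k K.card s' := by
        rw [patsY, List.mem_filter]
        refine ⟨?_, by simpa using (by omega : fr 0 g + 1 ≤ s')⟩
        have := mem_comps g4
        rwa [show g.length = K.card - 1 by omega, show g.sum = k + 1 + s' - K.card by omega] at this
      obtain ⟨cert, hc⟩ := hY s' a1 hs g hg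
      refine c.closes (fun Q hQ hm => ?_) hP' (by rintro rfl; simp at h3; omega) g1 hc
      rw [List.mem_range'_1] at hm
      exact ih (Q.length - (k + 1)) (by omega) (by omega) Q hQ (by omega)

theorem Ctx.pair (c : Ctx G K k) {s0 : ℕ} (hY : ∀ s, 1 ≤ s → s ≤ s0 → OkY k K.card s)
    (hX : ∀ n, K.card ≤ n → n ≤ k → k + 1 + s0 < n + 4 → OkX k K.card s0 n) : False := by
  classical
  have hl := c.not_long hY
  obtain ⟨P0, hP0, hl0⟩ := exists_kp c.hK
  have hw := c.card_le
  have hw' := c.hw
  let p : ℕ → Prop := fun n => ∃ P, KP G K P ∧ P.length = n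
  obtain ⟨X, hX1, hX2⟩ : p (Nat.findGreatest p k) := Nat.findGreatest_spec hw ⟨P0, hP0, hl0⟩
  have h1 : X.length ≤ k := hX2 ▸ Nat.findGreatest_le k
  have h2 : ∀ P, KP G K P → X.length < P.length → P.length ≤ k + 1 + s0 → False := by
    intro P hP a b
    by_cases hk : P.length ≤ k
    · have := Nat.le_findGreatest (P := p) hk ⟨P, hP, rfl⟩
      omega
    · exact hl (P.length - (k + 1)) (by omega) P hP (by omega)
  by_cases h4 : k + 1 + s0 < X.length + 4
  · have h5 := cK_add_cN K X
    have h6 := cK_eq hX1.1.nd hX1.2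
    have hne : X ≠ [] := by
      rintro rfl
      simp at h5
      omega
    obtain ⟨g, g1, g2, g3, g4, -⟩ := hX1.1.gaps c.hK hne (s := 0)
      fun _ _ _ _ _ _ _ _ _ _ => Nat.zero_le _
    have hg : g ∈ patsX K.card X.length := by
      have := mem_comps g4
      rwa [show g.length = K.card - 1 by omega, show g.sum = X.length - K.card by omega] at this
    obtain ⟨cert, hc⟩ := hX X.length (by omega) h1 h4 g hg
    refine c.closes (fun Q hQ hm => ?_) hX1 hne g1 hc
    rw [List.mem_range'_1] at hm
    exact h2 Q hQ (by omega) (by omega)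
  · exact c.stepA hX1 h1 fun P hP a b => h2 P hP a (by omega)

end Crest.Agent.R54
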